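import Mathlib

/-! Closed two-forms on the four-torus as periodic matrix fields, and their fibre averages (P204). -/

namespace Vale.Agent.P204

open scoped ContDiff Matrix
open MeasureTheory Set

/-- A closed smooth two-form on `ℝ⁴ / ℤ⁴`, written by its coefficient matrix. -/
def IsClosedForm (W : (Fin 4 → ℝ) → Matrix (Fin 4) (Fin 4) ℝ) : Prop :=
  (∀ a b, ContDiff ℝ ∞ fun x => W x a b) ∧
  (∀ x a b, W x b a = -W x a b) ∧
  (∀ x k, W (x + Pi.single k 1) = W x) ∧
  ∀ x a b c, fderiv ℝ (fun y => W y b c) x (Pi.single a 1) +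
    fderiv ℝ (fun y => W y c a) x (Pi.single b 1) +
    fderiv ℝ (fun y => W y a b) x (Pi.single c 1) = 0

/-- The average of a coefficient matrix over the fibre `{x 0 = t}`. -/
noncomputable def mean (W : (Fin 4 → ℝ) → Matrix (Fin 4) (Fin 4) ℝ) (t : ℝ) :
    Matrix (Fin 4) (Fin 4) ℝ :=
  Matrix.of fun a b => ∫ x in Icc (0 : Fin 3 → ℝ) 1, W (Fin.insertNth 0 t x) a b

theorem mean_skew {W : (Fin 4 → ℝ) → Matrix (Fin 4) (Fin 4) ℝ} (hW : IsClosedForm W) (t : ℝ)
    (a b : Fin 4) : mean W t b a = -mean W t a b := by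
  simp only [mean, Matrix.of_apply]
  rw [← integral_neg]
  simp only [hW.2.1 _ a b]

theorem insertNth_one_eq (k : Fin 4) (x : Fin 3 → ℝ) :
    (Fin.insertNth k (1 : ℝ) x : Fin 4 → ℝ) =
      (Fin.insertNth k (0 : ℝ) x : Fin 4 → ℝ) + Pi.single k 1 := by
  funext j
  induction j using Fin.succAboveCases k with
  | x => simp
  | p i => simp [Fin.succAbove_ne]

theorem mean_mono {W : (Fin 4 → ℝ) → Matrix (Fin 4) (Fin 4) ℝ} (hW : IsClosedForm W)
    {t s : ℝ} (hts : t ≤ s) {a b : Fin 4} (ha : a ≠ 0) (hb : b ≠ 0) (hab : a ≠ b) :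
    mean W s a b = mean W t a b := by
  obtain ⟨hsm, -, hper, hcl⟩ := hW
  let g : Fin 4 → (Fin 4 → ℝ) → ℝ := fun k =>
    if k = 0 then fun y => W y a b else if k = a then fun y => W y b 0
      else if k = b then fun y => W y 0 a else fun _ => 0
  have hg : ∀ k, ContDiff ℝ ∞ (g k) := by
    intro k
    simp only [g]
    split_ifs <;> first | exact hsm _ _ | exact contDiff_const
  have hgper : ∀ k x, g k (x + Pi.single k 1) = g k x := by
    intro k x
    simp only [g]
    split_ifs <;> simp [hper]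
  let lo : Fin 4 → ℝ := Fin.cons t 0
  let hi : Fin 4 → ℝ := Fin.cons s 1
  have hle : lo ≤ hi := by
    intro k
    induction k using Fin.cases <;> simp [lo, hi, hts]
  have hd : ∀ k x, HasFDerivAt (g k) (fderiv ℝ (g k) x) x := fun k x =>
    ((hg k).differentiable (by simp)).differentiableAt.hasFDerivAt
  have hdiv : ∀ x, ∑ k, fderiv ℝ (g k) x (Pi.single k 1) = 0 := by
    intro x
    have h0 : g 0 = fun y => W y a b := by simp [g]
    have h1 : g a = fun y => W y b 0 := by simp [g, ha]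
    have h2 : g b = fun y => W y 0 a := by simp [g, hb, hab.symm]
    rw [← Finset.sum_subset (Finset.subset_univ {0, a, b}) (fun k _ hk => by
      simp only [Finset.mem_insert, Finset.mem_singleton, not_or] at hk
      simp [g, hk.1, hk.2.1, hk.2.2])]
    rw [Finset.sum_insert (by simp [ha.symm, hb.symm]), Finset.sum_pair hab, h0, h1, h2,
      ← add_assoc]
    exact hcl x 0 a b
  have key := integral_divergence_of_hasFDerivAt_off_countable lo hi hle (fun x k => g k x)
    (fun x => ContinuousLinearMap.pi fun k => fderiv ℝ (g k) x) ∅ countable_empty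
    (continuous_pi fun k => (hg k).continuous).continuousOn
    (fun x _ => hasFDerivAt_pi.2 fun k => hd k x)
    (by simp [hdiv])
  simp only [ContinuousLinearMap.pi_apply, hdiv, integral_zero] at key
  rw [Fin.sum_univ_succ] at key
  have hz : ∀ i : Fin 3, ∀ x : Fin 3 → ℝ,
      g i.succ (Fin.insertNth i.succ (hi i.succ) x) =
        g i.succ (Fin.insertNth i.succ (lo i.succ) x) := by
    intro i x
    simp only [hi, lo, Fin.cons_succ, Pi.one_apply, Pi.zero_apply]
    rw [insertNth_one_eq, hgper]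
  simp only [hz, sub_self, Finset.sum_const_zero, add_zero] at key
  have hf : ∀ y, g 0 y = W y a b := fun y => by simp [g]
  simp only [hf, Fin.succAbove_zero, Function.comp_def, hi, lo, Fin.cons_succ, Fin.cons_zero]
    at key
  simp only [mean, Matrix.of_apply]
  exact sub_eq_zero.1 key.symm

theorem mean_eq {W : (Fin 4 → ℝ) → Matrix (Fin 4) (Fin 4) ℝ} (hW : IsClosedForm W) (t : ℝ)
    {a b : Fin 4} (ha : a ≠ 0) (hb : b ≠ 0) : mean W t a b = mean W 0 a b := by
  by_cases hab : a = b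
  · subst hab
    have h1 := mean_skew hW t a a
    have h2 := mean_skew hW 0 a a
    linarith
  · rcases le_total 0 t with h | h
    · exact mean_mono hW h ha hb hab
    · exact (mean_mono hW h ha hb hab).symm

theorem dot_mulVec (M : Matrix (Fin 4) (Fin 4) ℝ) (v w : Fin 4 → ℝ) :
    v ⬝ᵥ M *ᵥ w = ∑ a, ∑ b, v a * (M a b * w b) := by
  simp [dotProduct, Matrix.mulVec, Finset.mul_sum]

theorem mean_pos {W : (Fin 4 → ℝ) → Matrix (Fin 4) (Fin 4) ℝ} (hW : IsClosedForm W)
    {A : ℝ → Matrix (Fin 4) (Fin 4) ℝ}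
    (htame : ∀ x v, v ≠ 0 → 0 < v ⬝ᵥ W x *ᵥ (A (x 0) *ᵥ v))
    (t : ℝ) {v : Fin 4 → ℝ} (hv : v ≠ 0) (hv0 : v 0 = 0) (hAv0 : (A t *ᵥ v) 0 = 0) :
    0 < v ⬝ᵥ mean W 0 *ᵥ (A t *ᵥ v) := by
  have hcont : ∀ a b, Continuous fun x : Fin 3 → ℝ => W (Fin.insertNth 0 t x) a b := fun a b =>
    (hW.1 a b).continuous.comp (continuous_const.finInsertNth 0 continuous_id)
  let f : (Fin 3 → ℝ) → ℝ := fun x => v ⬝ᵥ W (Fin.insertNth 0 t x) *ᵥ (A t *ᵥ v)
  have hf : Continuous f := by
    simp only [f, dot_mulVec]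
    exact continuous_finsetSum _ fun a _ => continuous_finsetSum _ fun b _ =>
      continuous_const.mul ((hcont a b).mul continuous_const)
  have hfpos : ∀ x, 0 < f x := fun x => by
    have := htame (Fin.insertNth 0 t x) v hv
    rwa [Fin.insertNth_apply_same] at this
  obtain ⟨x0, -, hx0⟩ := isCompact_Icc.exists_isMinOn
    (s := Icc (0 : Fin 3 → ℝ) 1) ⟨0, by simp⟩ hf.continuousOn
  have hint : f x0 ≤ ∫ x in Icc (0 : Fin 3 → ℝ) 1, f x := by
    have h := setIntegral_mono_on (integrableOn_const (C := f x0) (s := Icc (0 : Fin 3 → ℝ) 1)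
      ((isCompact_Icc.measure_lt_top (μ := volume)).ne)) hf.integrableOn_Icc measurableSet_Icc hx0
    rwa [setIntegral_const, measureReal_def, Real.volume_Icc_pi, smul_eq_mul,
      show (∏ i : Fin 3, ENNReal.ofReal ((1 : Fin 3 → ℝ) i - (0 : Fin 3 → ℝ) i)) = 1 by simp,
      ENNReal.toReal_one, one_mul] at h
  have hi : ∀ a b, IntegrableOn (fun x : Fin 3 → ℝ =>
      v a * (W (Fin.insertNth 0 t x) a b * (A t *ᵥ v) b)) (Icc 0 1) := fun a b =>
    (continuous_const.mul ((hcont a b).mul continuous_const)).integrableOn_Icc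
  have e : ∫ x in Icc (0 : Fin 3 → ℝ) 1, f x = v ⬝ᵥ mean W 0 *ᵥ (A t *ᵥ v) := by
    simp only [f, dot_mulVec]
    rw [integral_finsetSum _ fun a _ => integrable_finsetSum _ fun b _ => hi a b]
    refine Finset.sum_congr rfl fun a _ => ?_
    rw [integral_finsetSum _ fun b _ => hi a b]
    refine Finset.sum_congr rfl fun b _ => ?_
    rw [integral_const_mul, integral_mul_const]
    by_cases ha : a = 0
    · simp [ha, hv0]
    · by_cases hb : b = 0
      · simp [hb, hAv0]
      · rw [← mean_eq hW t ha hb]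
        rfl
  linarith [hfpos x0]

end Vale.Agent.P204
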