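import Vale.Agent.P204.LinBeltrami

/-! Linear algebra of two complex structures on `ℝ²` and the twisted Beltrami system (P204). -/

namespace Vale.Agent.P204

open Vale.Agent.P229 (P2)
open Vale.Agent.P205 (Periodic2)
open scoped ContDiff ComplexConjugate Matrix

namespace Cx

abbrev M2 := Matrix (Fin 2) (Fin 2) ℝ

/-- The coefficient of `z` in a real linear map of `ℂ`. -/
noncomputable def aof (L : M2) : ℂ := ⟨(L 0 0 + L 1 1) / 2, (L 1 0 - L 0 1) / 2⟩

/-- The coefficient of `conj z` in a real linear map of `ℂ`. -/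
noncomputable def bof (L : M2) : ℂ := ⟨(L 0 0 - L 1 1) / 2, (L 1 0 + L 0 1) / 2⟩

/-- The real linear map `z ↦ a z + b conj z`. -/
def lof (a b : ℂ) : M2 := !![(a + b).re, (b - a).im; (a + b).im, (a - b).re]

lemma lof_eq (L : M2) : lof (aof L) (bof L) = L := by
  ext c d; fin_cases c <;> fin_cases d <;> simp [lof, aof, bof] <;> ring

lemma aof_lof (a b : ℂ) : aof (lof a b) = a ∧ bof (lof a b) = b := by
  constructor <;> apply Complex.ext <;> simp [lof, aof, bof] <;> ring

lemma det_eq (L : M2) : L.det = ‖aof L‖ ^ 2 - ‖bof L‖ ^ 2 := by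
  rw [Complex.sq_norm, Complex.sq_norm, Complex.normSq_apply, Complex.normSq_apply,
    Matrix.det_fin_two]
  simp [aof, bof]; ring

/-- A matrix with square `-1`. -/
lemma sq_neg_one {M : M2} (h : M * M = -1) :
    M 1 1 = -M 0 0 ∧ M 0 0 ^ 2 + M 0 1 * M 1 0 = -1 ∧ M 1 0 ≠ 0 := by
  have e00 := congrFun (congrFun h 0) 0
  have e10 := congrFun (congrFun h 1) 0
  simp [Matrix.mul_apply, Fin.sum_univ_two] at e00 e10
  have h10 : M 1 0 ≠ 0 := by intro h0; rw [h0] at e00; nlinarith [sq_nonneg (M 0 0)]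
  refine ⟨?_, by linarith, h10⟩
  have : M 1 0 * (M 1 1 + M 0 0) = 0 := by linarith
  rcases mul_eq_zero.1 this with h' | h'
  · exact absurd h' h10
  · linarith

/-- The quadratic form `v ↦ det (v, M v)` has the sign of `M 1 0`. -/
lemma quad_pos {M : M2} (h : M * M = -1) {x y : ℝ} (hv : x ≠ 0 ∨ y ≠ 0) :
    0 < M 1 0 * (M 1 0 * x ^ 2 - 2 * M 0 0 * (x * y) - M 0 1 * y ^ 2) := by
  obtain ⟨-, h2, h10⟩ := sq_neg_one h
  have e : M 1 0 * (M 1 0 * x ^ 2 - 2 * M 0 0 * (x * y) - M 0 1 * y ^ 2)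
      = (M 1 0 * x - M 0 0 * y) ^ 2 + y ^ 2 := by linear_combination (-y ^ 2) * h2
  rw [e]
  by_cases hy : y = 0
  · subst hy
    have hx : x ≠ 0 := by simpa using hv
    have : M 1 0 * x - M 0 0 * 0 ≠ 0 := by simp [h10, hx]
    positivity
  · positivity

/-- Intertwiners of like oriented structures preserve orientation, anti-intertwiners reverse it. -/
lemma sign_det {i j L : M2} {ε : ℝ} (hi : i * i = -1) (hj : j * j = -1)
    (hσ : 0 < j 1 0 * i 1 0) (h : i * L = ε • (L * j)) (hε : ε ≠ 0) (hL : L ≠ 0) :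
    0 < ε * L.det := by
  obtain ⟨ti, -, i10⟩ := sq_neg_one hi
  obtain ⟨tj, -, j10⟩ := sq_neg_one hj
  have e00 := congrFun (congrFun h 0) 0
  have e10 := congrFun (congrFun h 1) 0
  simp [Matrix.mul_apply, Fin.sum_univ_two] at e00 e10
  by_cases hc : L 0 0 = 0 ∧ L 1 0 = 0
  · exfalso
    apply hL
    obtain ⟨a, b⟩ := hc
    simp [a, b, hε, j10] at e00 e10
    ext c d; fin_cases c <;> fin_cases d <;> simp [a, b, e00, e10]
  · have hp := quad_pos hi (x := L 0 0) (y := L 1 0) (by tauto)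
    rw [ti] at e10
    have key : i 1 0 * L 0 0 ^ 2 - 2 * i 0 0 * (L 0 0 * L 1 0) - i 0 1 * L 1 0 ^ 2
        = ε * L.det * j 1 0 := by
      rw [Matrix.det_fin_two]
      linear_combination L 0 0 * e10 - L 1 0 * e00
    rw [key] at hp
    by_contra hn
    push_neg at hn
    nlinarith [mul_nonpos_iff.2 (Or.inr ⟨hn, hσ.le⟩)]

/-- The projection to the intertwiners. -/
def proj (i j S : M2) : M2 := S - i * S * j

/-- The conformal matrix of a complex number. -/
def conf (a : ℂ) : M2 := lof a 0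

lemma proj_mem {i j : M2} (hi : i * i = -1) (hj : j * j = -1) (S : M2) :
    i * proj i j S = proj i j S * j := by
  have a : i * (i * S * j) = -(S * j) := by
    rw [← Matrix.mul_assoc, ← Matrix.mul_assoc, hi]; simp
  have b : i * S * j * j = -(i * S) := by rw [Matrix.mul_assoc, hj]; simp
  rw [proj, Matrix.mul_sub, Matrix.sub_mul, a, b]; abel

lemma proj_conf_ne {i j : M2} (hi : i * i = -1) (hj : j * j = -1)
    (hσ : 0 < j 1 0 * i 1 0) {a : ℂ} (ha : a ≠ 0) : proj i j (conf a) ≠ 0 := by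
  intro h
  have h' : i * conf a = (-1 : ℝ) • (conf a * j) := by
    have e : conf a = i * conf a * j := sub_eq_zero.1 h
    conv_rhs => rw [e, Matrix.mul_assoc, hj]
    simp
  have hne : conf a ≠ 0 := fun h0 => ha <| by
    have := congrArg aof h0
    rw [conf, (aof_lof a 0).1] at this
    rw [this]
    apply Complex.ext <;> simp [aof]
  have hd := sign_det hi hj hσ h' (by norm_num) hne
  rw [det_eq, conf, (aof_lof a 0).1, (aof_lof a 0).2, norm_zero] at hd
  nlinarith [sq_nonneg ‖a‖]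

/-- The `z` part of the parametrisation of intertwiners by conformal matrices. -/
noncomputable def gA (i j : M2) (a : ℂ) : ℂ := aof (proj i j (conf a))

/-- The `conj z` part. -/
noncomputable def gB (i j : M2) (a : ℂ) : ℂ := bof (proj i j (conf a))

noncomputable def den (i j : M2) : ℂ :=
  gA i j 1 * conj (gA i j Complex.I) - gA i j Complex.I * conj (gA i j 1)

/-- The coefficient of `A` in the equation of the graph of the intertwiners. -/
noncomputable def muC (i j : M2) : ℂ :=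
  (gB i j 1 * conj (gA i j Complex.I) - gB i j Complex.I * conj (gA i j 1)) / den i j

/-- The coefficient of `conj A`. -/
noncomputable def nuC (i j : M2) : ℂ :=
  (gA i j 1 * gB i j Complex.I - gA i j Complex.I * gB i j 1) / den i j

lemma g_linear (i j : M2) (a : ℂ) :
    gA i j a = (a.re : ℂ) * gA i j 1 + (a.im : ℂ) * gA i j Complex.I ∧
    gB i j a = (a.re : ℂ) * gB i j 1 + (a.im : ℂ) * gB i j Complex.I := by
  constructor <;> apply Complex.ext <;>
    simp [gA, gB, aof, bof, proj, conf, lof, Matrix.mul_apply, Fin.sum_univ_two] <;> ring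

variable {i j : M2} (hi : i * i = -1) (hj : j * j = -1) (hσ : 0 < j 1 0 * i 1 0)
include hi hj hσ

lemma gB_lt {a : ℂ} (ha : a ≠ 0) : ‖gB i j a‖ < ‖gA i j a‖ := by
  have h := sign_det hi hj hσ (ε := 1) (by rw [one_smul]; exact proj_mem hi hj (conf a))
    one_ne_zero (proj_conf_ne hi hj hσ ha)
  rw [one_mul, det_eq] at h
  exact lt_of_pow_lt_pow_left₀ 2 (norm_nonneg _) (by unfold gA gB; linarith)

lemma den_ne : den i j ≠ 0 := by
  intro h
  set p := gA i j 1 with hp
  set q := gA i j Complex.I with hq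
  have him : (p * conj q).im = 0 := by
    have h2 := congrArg Complex.im h
    simp [den, ← hp, ← hq] at h2
    simp
    linarith
  have key : ∀ a : ℂ, gA i j a = 0 → a = 0 := fun a hz => by
    by_contra ha
    have := gB_lt hi hj hσ ha
    rw [hz, norm_zero] at this
    exact absurd this (not_lt.2 (norm_nonneg _))
  have hq0 : q ≠ 0 := fun h0 => Complex.I_ne_zero (key _ h0)
  have h1 := key ⟨Complex.normSq q, -(p * conj q).re⟩ (by
    rw [(g_linear i j _).1, ← hp, ← hq]
    have e : (((p * conj q).re : ℝ) : ℂ) = p * conj q := Complex.ext (by simp) (by simp [him])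
    simp only [Complex.ofReal_neg, e, Complex.normSq_eq_conj_mul_self]
    ring)
  exact hq0 (Complex.normSq_eq_zero.1 (congrArg Complex.re h1))

lemma gA_surj (b : ℂ) : ∃ a, gA i j a = b := by
  let f : ℂ →ₗ[ℝ] ℂ :=
    { toFun := gA i j
      map_add' := fun x y => by
        rw [(g_linear i j (x + y)).1, (g_linear i j x).1, (g_linear i j y).1]
        simp; ring
      map_smul' := fun r x => by
        rw [(g_linear i j (r • x)).1, (g_linear i j x).1]
        simp [Complex.real_smul]; ring }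
  have hinj : Function.Injective f := by
    rw [injective_iff_map_eq_zero]
    intro a hz
    by_contra ha
    have := gB_lt hi hj hσ ha
    rw [show gA i j a = 0 from hz, norm_zero] at this
    exact absurd this (not_lt.2 (norm_nonneg _))
  exact LinearMap.injective_iff_surjective.1 hinj b

lemma gB_eq (a : ℂ) :
    gB i j a = muC i j * gA i j a + nuC i j * conj (gA i j a) := by
  have hd := den_ne hi hj hσ
  rw [(g_linear i j a).2, (g_linear i j a).1]
  simp only [map_add, map_mul, Complex.conj_ofReal]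
  unfold muC nuC
  field_simp
  unfold den
  ring

lemma coeff_lt : ‖muC i j‖ + ‖nuC i j‖ < 1 := by
  set μ := muC i j
  set ν := nuC i j
  set b : ℂ := Complex.exp (((ν.arg - μ.arg) / 2 : ℝ) * Complex.I) with hb
  obtain ⟨a, ha⟩ := gA_surj hi hj hσ b
  have hb1 : ‖b‖ = 1 := Complex.norm_exp_ofReal_mul_I _
  have hz : gA i j 0 = 0 := by rw [(g_linear i j 0).1]; simp
  have hne : a ≠ 0 := fun h0 => by rw [h0, hz] at ha; rw [← ha, norm_zero] at hb1; linarith
  have h := gB_lt hi hj hσ hne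
  rw [gB_eq hi hj hσ, ha, hb1] at h
  have e : μ * b + ν * conj b
      = ((‖μ‖ + ‖ν‖ : ℝ) : ℂ) * Complex.exp (((μ.arg + ν.arg) / 2 : ℝ) * Complex.I) := by
    conv_lhs => rw [← Complex.norm_mul_exp_arg_mul_I μ, ← Complex.norm_mul_exp_arg_mul_I ν, hb,
      ← Complex.exp_conj, map_mul, Complex.conj_ofReal, Complex.conj_I]
    rw [mul_assoc, mul_assoc, ← Complex.exp_add, ← Complex.exp_add, Complex.ofReal_add, add_mul]
    congr 2 <;> push_cast <;> ring
  rw [e, norm_mul, Complex.norm_exp_ofReal_mul_I, Complex.norm_real, mul_one,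
    Real.norm_of_nonneg (by positivity)] at h
  exact h

omit hi hj hσ

lemma smooth_gA {i j : P2 → M2} (si : ∀ c d, ContDiff ℝ ∞ fun u => i u c d)
    (sj : ∀ c d, ContDiff ℝ ∞ fun u => j u c d) (a : ℂ) :
    ContDiff ℝ ∞ (fun u => gA (i u) (j u) a) ∧ ContDiff ℝ ∞ (fun u => gB (i u) (j u) a) := by
  have mk : ∀ {f g : P2 → ℝ}, ContDiff ℝ ∞ f → ContDiff ℝ ∞ g →
      ContDiff ℝ ∞ fun u => (⟨f u, g u⟩ : ℂ) := fun {f g} hf hg => by
    simp only [Complex.mk_eq_add_mul_I]
    exact (Complex.ofRealCLM.contDiff.comp hf).add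
      ((Complex.ofRealCLM.contDiff.comp hg).mul contDiff_const)
  have hp : ∀ c d, ContDiff ℝ ∞ fun u => proj (i u) (j u) (conf a) c d := fun c d => by
    simp only [proj, Matrix.sub_apply, Matrix.mul_apply, Fin.sum_univ_two]
    fun_prop (disch := simp)
  exact ⟨mk (((hp 0 0).add (hp 1 1)).div_const 2) (((hp 1 0).sub (hp 0 1)).div_const 2),
    mk (((hp 0 0).sub (hp 1 1)).div_const 2) (((hp 1 0).add (hp 0 1)).div_const 2)⟩

/-- Like oriented case of `exists_closed`. -/
theorem core {i j K : P2 → M2} (si : ∀ c d, ContDiff ℝ ∞ fun u => i u c d)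
    (sj : ∀ c d, ContDiff ℝ ∞ fun u => j u c d) (sK : ∀ c d, ContDiff ℝ ∞ fun u => K u c d)
    (pi' : Periodic2 (1, 0) (0, 1) i) (pj : Periodic2 (1, 0) (0, 1) j)
    (pK : Periodic2 (1, 0) (0, 1) K) (hi : ∀ u, i u * i u = -1) (hj : ∀ u, j u * j u = -1)
    (hσ : ∀ u, 0 < j u 1 0 * i u 1 0) (hK : ∀ u, K u * j u = -(i u * K u)) :
    ∃ L : P2 → M2, (∀ c d, ContDiff ℝ ∞ fun u => L u c d) ∧ Periodic2 (1, 0) (0, 1) L ∧
      (∀ u c, fderiv ℝ (fun v => L v c 0) u (0, 1) = fderiv ℝ (fun v => L v c 1) u (1, 0)) ∧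
      ∀ u, i u * L u - L u * j u = K u := by
  set L0 : P2 → M2 := fun u => (-(1 / 2 : ℝ)) • (i u * K u) with hL0
  set μ : P2 → ℂ := fun u => muC (i u) (j u) with hμ
  set ν : P2 → ℂ := fun u => nuC (i u) (j u) with hν
  set h : P2 → ℂ := fun u => bof (L0 u) - μ u * aof (L0 u) - ν u * conj (aof (L0 u)) with hh
  have cj : ∀ {f : P2 → ℂ}, ContDiff ℝ ∞ f → ContDiff ℝ ∞ fun u => conj (f u) :=
    fun {f} hf => Complex.conjCLE.contDiff.comp hf
  have g1 := smooth_gA si sj 1
  have gI := smooth_gA si sj Complex.I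
  have sd : ContDiff ℝ ∞ fun u => den (i u) (j u) :=
    (g1.1.mul (cj gI.1)).sub (gI.1.mul (cj g1.1))
  have hdn : ∀ u, den (i u) (j u) ≠ 0 := fun u => den_ne (hi u) (hj u) (hσ u)
  have sμ : ContDiff ℝ ∞ μ := by
    simp only [hμ, muC, div_eq_mul_inv]
    exact ((g1.2.mul (cj gI.1)).sub (gI.2.mul (cj g1.1))).mul (sd.inv hdn)
  have sν : ContDiff ℝ ∞ ν := by
    simp only [hν, nuC, div_eq_mul_inv]
    exact ((g1.1.mul gI.2).sub (gI.1.mul g1.2)).mul (sd.inv hdn)
  have sL0 : ∀ c d, ContDiff ℝ ∞ fun u => L0 u c d := fun c d => by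
    simp only [hL0, Matrix.smul_apply, Matrix.mul_apply, Fin.sum_univ_two, smul_eq_mul]
    fun_prop (disch := simp)
  have mk : ∀ {f g : P2 → ℝ}, ContDiff ℝ ∞ f → ContDiff ℝ ∞ g →
      ContDiff ℝ ∞ fun u => (⟨f u, g u⟩ : ℂ) := fun {f g} hf hg => by
    simp only [Complex.mk_eq_add_mul_I]
    exact (Complex.ofRealCLM.contDiff.comp hf).add
      ((Complex.ofRealCLM.contDiff.comp hg).mul contDiff_const)
  have sa : ContDiff ℝ ∞ fun u => aof (L0 u) :=
    mk (((sL0 0 0).add (sL0 1 1)).div_const 2) (((sL0 1 0).sub (sL0 0 1)).div_const 2)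
  have sb : ContDiff ℝ ∞ fun u => bof (L0 u) :=
    mk (((sL0 0 0).sub (sL0 1 1)).div_const 2) (((sL0 1 0).add (sL0 0 1)).div_const 2)
  have sh : ContDiff ℝ ∞ h := (sb.sub (sμ.mul sa)).sub (sν.mul (cj sa))
  have pp : ∀ {β : Type} (F : M2 → M2 → M2 → β),
      Periodic2 (1, 0) (0, 1) fun u => F (i u) (j u) (K u) := fun F u =>
    ⟨by simp only [(pi' u).1, (pj u).1, (pK u).1], by simp only [(pi' u).2, (pj u).2, (pK u).2]⟩
  obtain ⟨A, B, sA, sB, pA, pB, hAB, hcl⟩ := LinBeltrami.solve sμ sν sh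
    (pp fun a b _ => muC a b) (pp fun a b _ => nuC a b)
    (pp fun a b k => bof ((-(1 / 2 : ℝ)) • (a * k)) - muC a b * aof ((-(1 / 2 : ℝ)) • (a * k))
      - nuC a b * conj (aof ((-(1 / 2 : ℝ)) • (a * k))))
    (fun u => coeff_lt (hi u) (hj u) (hσ u))
  have e0 : (fun v => lof (A v) (B v) 0 0) = fun v => Complex.reCLM (A v + B v) :=
    funext fun v => by simp [lof]
  have e1 : (fun v => lof (A v) (B v) 1 0) = fun v => Complex.imCLM (A v + B v) :=
    funext fun v => by simp [lof]
  have e2 : (fun v => lof (A v) (B v) 0 1) = fun v => Complex.reCLM (Complex.I * (A v - B v)) :=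
    funext fun v => by simp [lof]
  have e3 : (fun v => lof (A v) (B v) 1 1) = fun v => Complex.imCLM (Complex.I * (A v - B v)) :=
    funext fun v => by simp [lof]
  have t1 : ContDiff ℝ ∞ fun v => A v + B v := sA.add sB
  have t2 : ContDiff ℝ ∞ fun v => Complex.I * (A v - B v) := contDiff_const.mul (sA.sub sB)
  refine ⟨fun u => lof (A u) (B u), fun c d => ?_, fun u => ⟨?_, ?_⟩, fun u c => ?_, fun u => ?_⟩
  · fin_cases c <;> fin_cases d
    · exact e0 ▸ Complex.reCLM.contDiff.comp t1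
    · exact e2 ▸ Complex.reCLM.contDiff.comp t2
    · exact e1 ▸ Complex.imCLM.contDiff.comp t1
    · exact e3 ▸ Complex.imCLM.contDiff.comp t2
  · simp only [(pA u).1, (pB u).1]
  · simp only [(pA u).2, (pB u).2]
  · have d1 := (t1.differentiable (by simp) u).hasFDerivAt
    have d2 := (t2.differentiable (by simp) u).hasFDerivAt
    fin_cases c
    · show fderiv ℝ (fun v => lof (A v) (B v) 0 0) u (0, 1)
        = fderiv ℝ (fun v => lof (A v) (B v) 0 1) u (1, 0)
      have f1 := (Complex.reCLM.hasFDerivAt.comp u d1).fderiv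
      have f2 := (Complex.reCLM.hasFDerivAt.comp u d2).fderiv
      simp only [Function.comp_def] at f1 f2
      rw [e0, e2, f1, f2]
      exact congrArg Complex.reCLM (hcl u)
    · show fderiv ℝ (fun v => lof (A v) (B v) 1 0) u (0, 1)
        = fderiv ℝ (fun v => lof (A v) (B v) 1 1) u (1, 0)
      have f1 := (Complex.imCLM.hasFDerivAt.comp u d1).fderiv
      have f2 := (Complex.imCLM.hasFDerivAt.comp u d2).fderiv
      simp only [Function.comp_def] at f1 f2
      rw [e1, e3, f1, f2]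
      exact congrArg Complex.imCLM (hcl u)
  · obtain ⟨a, ha⟩ := gA_surj (hi u) (hj u) (hσ u) (A u - aof (L0 u))
    have hb := gB_eq (hi u) (hj u) (hσ u) a
    have hbd : gB (i u) (j u) a = B u - bof (L0 u) := by
      rw [hb, ha, hAB u, map_sub]
      simp only [hh, hμ, hν]
      ring
    have e : lof (A u) (B u) = L0 u + proj (i u) (j u) (conf a) := by
      rw [← lof_eq (proj (i u) (j u) (conf a)), ← lof_eq (L0 u)]
      rw [show aof (proj (i u) (j u) (conf a)) = _ from ha,
        show bof (proj (i u) (j u) (conf a)) = _ from hbd]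
      ext c d; fin_cases c <;> fin_cases d <;> simp [lof] <;> ring
    have q : i u * (i u * K u) = -K u := by rw [← Matrix.mul_assoc, hi]; simp
    have q2 : i u * K u * j u = K u := by rw [Matrix.mul_assoc, hK, Matrix.mul_neg, q, neg_neg]
    show i u * lof (A u) (B u) - lof (A u) (B u) * j u = K u
    rw [e, Matrix.mul_add, Matrix.add_mul, proj_mem (hi u) (hj u), add_sub_add_right_eq_sub]
    simp only [hL0, Matrix.mul_smul, Matrix.smul_mul, q, q2]
    ext c d; simp; ring

end Cx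

end Vale.Agent.P204
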