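import Vale.Agent.P204.Basic
import Vale.Agent.P204.CxAlgebra

/-! A compatible symplectic form for almost complex structures on the four-torus depending on two
coordinates with invariant fibre planes (P204). -/

namespace Vale.Agent.P204

open Vale.Agent.P229 (P2)
open Vale.Agent.P205 (Periodic2)
open scoped ContDiff Matrix
open Cx (M2 sq_neg_one quad_pos)

/-- `i L - L j = K` has a solution whose rows are closed one-forms. -/
theorem exists_closed {i j K : P2 → M2} (si : ∀ c d, ContDiff ℝ ∞ fun u => i u c d)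
    (sj : ∀ c d, ContDiff ℝ ∞ fun u => j u c d) (sK : ∀ c d, ContDiff ℝ ∞ fun u => K u c d)
    (pi' : Periodic2 (1, 0) (0, 1) i) (pj : Periodic2 (1, 0) (0, 1) j)
    (pK : Periodic2 (1, 0) (0, 1) K) (hi : ∀ u, i u * i u = -1) (hj : ∀ u, j u * j u = -1)
    (hK : ∀ u, K u * j u = -(i u * K u)) :
    ∃ L : P2 → M2, (∀ c d, ContDiff ℝ ∞ fun u => L u c d) ∧ Periodic2 (1, 0) (0, 1) L ∧
      (∀ u c, fderiv ℝ (fun v => L v c 0) u (0, 1) = fderiv ℝ (fun v => L v c 1) u (1, 0)) ∧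
      ∀ u, i u * L u - L u * j u = K u := by
  have hs : (∀ u, 0 < j u 1 0 * i u 1 0) ∨ ∀ u, j u 1 0 * i u 1 0 < 0 := by
    have hc : Continuous fun u => j u 1 0 * i u 1 0 :=
      (sj 1 0).continuous.mul (si 1 0).continuous
    have hne : ∀ u, j u 1 0 * i u 1 0 ≠ 0 := fun u =>
      mul_ne_zero (sq_neg_one (hj u)).2.2 (sq_neg_one (hi u)).2.2
    by_contra hcon
    push_neg at hcon
    obtain ⟨⟨a, ha⟩, b, hb⟩ := hcon
    obtain ⟨c, hc0⟩ := intermediate_value_univ a b hc ⟨ha, hb⟩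
    exact hne c hc0
  rcases hs with hσ | hσ
  · exact Cx.core si sj sK pi' pj pK hi hj hσ hK
  · set R : M2 := Matrix.diagonal ![1, -1] with hR
    have RR : R * R = 1 := by
      rw [hR, Matrix.diagonal_mul_diagonal]
      ext c d; fin_cases c <;> fin_cases d <;> simp
    have RRa : ∀ M : M2, R * (R * M) = M := fun M => by rw [← Matrix.mul_assoc, RR, Matrix.one_mul]
    have sR : ∀ {f : P2 → M2}, (∀ c d, ContDiff ℝ ∞ fun u => f u c d) →
        ∀ (A B : M2) c d, ContDiff ℝ ∞ fun u => (A * f u * B) c d := fun {f} hf A B c d => by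
      simp only [Matrix.mul_apply, Fin.sum_univ_two]
      fun_prop
    obtain ⟨L, sL, pL, cL, eL⟩ := Cx.core (i := fun u => R * i u * R) (j := j)
      (K := fun u => R * K u * 1) (sR si R R) sj (sR sK R 1)
      (fun u => ⟨by simp only [(pi' u).1], by simp only [(pi' u).2]⟩) pj
      (fun u => ⟨by simp only [(pK u).1], by simp only [(pK u).2]⟩)
      (fun u => by
        simp only [Matrix.mul_assoc, RRa]
        rw [← Matrix.mul_assoc (i u) (i u), hi]; simp [RR])
      hj (fun u => by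
        have e : (R * i u * R) 1 0 = -i u 1 0 := by simp [hR, Matrix.diagonal_mul, Matrix.mul_diagonal]
        rw [e, mul_neg, neg_pos]; exact hσ u)
      (fun u => by
        simp only [Matrix.mul_assoc, Matrix.mul_one, RRa, hK, Matrix.mul_neg])
    refine ⟨fun u => R * L u * 1, sR sL R 1, fun u =>
      ⟨by simp only [(pL u).1], by simp only [(pL u).2]⟩, fun u c => ?_, fun u => ?_⟩
    · fin_cases c
      · simpa [hR, Matrix.diagonal_mul, fderiv_fun_neg] using cL u 0
      · simpa [hR, Matrix.diagonal_mul, fderiv_fun_neg] using cL u 1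
    · have h2 := congrArg (R * ·) (eL u)
      simp only [Matrix.mul_sub, Matrix.mul_assoc, Matrix.mul_one, RRa] at h2 ⊢
      exact h2

/-- The projection to the base torus. -/
noncomputable def base : (Fin 4 → ℝ) →L[ℝ] P2 :=
  (ContinuousLinearMap.proj 0).prod (ContinuousLinearMap.proj 1)

/-- A two-form pulled back from data on the base. -/
noncomputable def formOf (f : P2 → ℝ) (g h : P2 → Fin 2 → ℝ) (c : ℝ) (x : Fin 4 → ℝ) :
    Matrix (Fin 4) (Fin 4) ℝ :=
  !![0, f (base x), g (base x) 0, h (base x) 0;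
     -f (base x), 0, g (base x) 1, h (base x) 1;
     -g (base x) 0, -g (base x) 1, 0, c;
     -h (base x) 0, -h (base x) 1, -c, 0]

lemma isClosedForm_formOf {f : P2 → ℝ} {g h : P2 → Fin 2 → ℝ} (c : ℝ) (sf : ContDiff ℝ ∞ f)
    (sg : ∀ a, ContDiff ℝ ∞ fun u => g u a) (sh : ∀ a, ContDiff ℝ ∞ fun u => h u a)
    (pf : Periodic2 (1, 0) (0, 1) f) (pg : Periodic2 (1, 0) (0, 1) g)
    (ph : Periodic2 (1, 0) (0, 1) h)
    (cg : ∀ u, fderiv ℝ (fun v => g v 0) u (0, 1) = fderiv ℝ (fun v => g v 1) u (1, 0))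
    (ch : ∀ u, fderiv ℝ (fun v => h v 0) u (0, 1) = fderiv ℝ (fun v => h v 1) u (1, 0)) :
    IsClosedForm (formOf f g h c) := by
  have sb : ∀ {F : P2 → ℝ}, ContDiff ℝ ∞ F → ContDiff ℝ ∞ fun x => F (base x) :=
    fun hF => hF.comp base.contDiff
  refine ⟨fun a b => ?_, fun x a b => ?_, fun x k => ?_, fun x a b d => ?_⟩
  · fin_cases a <;> fin_cases b <;> simp [formOf]
    all_goals first
      | exact contDiff_const
      | exact sb sf
      | exact (sb sf).neg
      | exact sb (sg _)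
      | exact (sb (sg _)).neg
      | exact sb (sh _)
      | exact (sb (sh _)).neg
  · fin_cases a <;> fin_cases b <;> simp [formOf]
  · fin_cases k <;>
      simp [formOf, base, Pi.single_apply, ← Prod.mk_add_mk, (pf _).1, (pf _).2, (pg _).1,
        (pg _).2, (ph _).1, (ph _).2]
    all_goals
      simp only [show ∀ p q : ℝ, (p + 1, q) = ((p, q) : P2) + (1, 0) from fun p q => by simp,
        show ∀ p q : ℝ, (p, q + 1) = ((p, q) : P2) + (0, 1) from fun p q => by simp,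
        (pf _).1, (pf _).2, (pg _).1, (pg _).2, (ph _).1, (ph _).2]
      simp
  · have d1 : ∀ {F : P2 → ℝ}, ContDiff ℝ ∞ F → ∀ v,
        fderiv ℝ (fun y => F (base y)) x v = fderiv ℝ F (base x) (base v) := fun {F} hF v => by
      have := ((hF.differentiable (by simp) (base x)).hasFDerivAt.comp x base.hasFDerivAt).fderiv
      simp only [Function.comp_def] at this
      rw [this]
      rfl
    have d2 : ∀ {F : P2 → ℝ}, ContDiff ℝ ∞ F → ∀ v,
        fderiv ℝ (fun y => -F (base y)) x v = -fderiv ℝ F (base x) (base v) := fun {F} hF v => by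
      rw [← d1 hF, fderiv_fun_neg]; rfl
    have b0 : base (Pi.single 0 1) = (1, 0) := by simp [base]
    have b1 : base (Pi.single 1 1) = (0, 1) := by simp [base]
    have b2 : base (Pi.single 2 1) = 0 := by simp [base]
    have b3 : base (Pi.single 3 1) = 0 := by simp [base]
    fin_cases a <;> fin_cases b <;> fin_cases d <;>
      simp [formOf, d1 sf, d2 sf, d1 (sg _), d2 (sg _), d1 (sh _), d2 (sh _), b0, b1, b2, b3,
        cg, ch]

/-- The pointwise identities of the construction. -/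
lemma pointwise {M W : Matrix (Fin 4) (Fin 4) ℝ} {L : M2} (s t : ℝ)
    (z : M 0 2 = 0 ∧ M 0 3 = 0 ∧ M 1 2 = 0 ∧ M 1 3 = 0) (hM : M * M = -1)
    (tj : M 1 1 = -M 0 0) (ti : M 3 3 = -M 2 2)
    (E00 : M 2 0 = M 2 2 * L 0 0 + M 2 3 * L 1 0 - (L 0 0 * M 0 0 + L 0 1 * M 1 0))
    (E01 : M 2 1 = M 2 2 * L 0 1 + M 2 3 * L 1 1 - (L 0 0 * M 0 1 + L 0 1 * M 1 1))
    (E10 : M 3 0 = M 3 2 * L 0 0 + M 3 3 * L 1 0 - (L 1 0 * M 0 0 + L 1 1 * M 1 0))
    (E11 : M 3 1 = M 3 2 * L 0 1 + M 3 3 * L 1 1 - (L 1 0 * M 0 1 + L 1 1 * M 1 1))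
    (hW : W = !![0, s + t * (L 0 0 * L 1 1 - L 0 1 * L 1 0), -(t * L 1 0), t * L 0 0;
      -(s + t * (L 0 0 * L 1 1 - L 0 1 * L 1 0)), 0, -(t * L 1 1), t * L 0 1;
      t * L 1 0, t * L 1 1, 0, t;
      -(t * L 0 0), -(t * L 0 1), -t, 0]) :
    Mᵀ * W * M = W ∧ ∀ v : Fin 4 → ℝ, v ⬝ᵥ W *ᵥ (M *ᵥ v)
      = s * (M 1 0 * v 0 ^ 2 - 2 * M 0 0 * (v 0 * v 1) - M 0 1 * v 1 ^ 2)
        + t * (M 3 2 * (L 0 0 * v 0 + L 0 1 * v 1 + v 2) ^ 2
          - 2 * M 2 2 * ((L 0 0 * v 0 + L 0 1 * v 1 + v 2) * (L 1 0 * v 0 + L 1 1 * v 1 + v 3))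
          - M 2 3 * (L 1 0 * v 0 + L 1 1 * v 1 + v 3) ^ 2) := by
  obtain ⟨z1, z2, z3, z4⟩ := z
  subst hW
  refine ⟨?_, fun v => ?_⟩
  · set W := !![0, s + t * (L 0 0 * L 1 1 - L 0 1 * L 1 0), -(t * L 1 0), t * L 0 0;
      -(s + t * (L 0 0 * L 1 1 - L 0 1 * L 1 0)), 0, -(t * L 1 1), t * L 0 1;
      t * L 1 0, t * L 1 1, 0, t;
      -(t * L 0 0), -(t * L 0 1), -t, 0] with hW
    have hskew : Wᵀ = -W := by
      ext a b; fin_cases a <;> fin_cases b <;> simp [hW]
    have hsym : (W * M)ᵀ = W * M := by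
      ext a b; fin_cases a <;> fin_cases b <;>
        simp [hW, Matrix.mul_apply, Matrix.vecMul, dotProduct, Fin.sum_univ_four, z1, z2, z3, z4, E00, E01, E10, E11, tj, ti] <;>
        ring
    rw [Matrix.transpose_mul, hskew, Matrix.mul_neg] at hsym
    rw [neg_eq_iff_eq_neg.1 hsym, Matrix.neg_mul, Matrix.mul_assoc, hM]
    simp
  · simp [dotProduct, Matrix.mulVec, Fin.sum_univ_four, z1, z2, z3, z4, E00, E01, E10, E11, tj, ti]
    ring

/-- Compatible symplectic forms for structures with invariant fibre planes. -/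
theorem complexFibre (J : (Fin 4 → ℝ) → Matrix (Fin 4) (Fin 4) ℝ)
    (hsm : ∀ a b, ContDiff ℝ ∞ fun x => J x a b) (hJ : ∀ x, J x * J x = -1)
    (hper : ∀ x k, J (x + Pi.single k 1) = J x)
    (hdep : ∀ x y, x 0 = y 0 → x 1 = y 1 → J x = J y)
    (hfib : ∀ x, J x 0 2 = 0 ∧ J x 0 3 = 0 ∧ J x 1 2 = 0 ∧ J x 1 3 = 0) :
    ∃ W : (Fin 4 → ℝ) → Matrix (Fin 4) (Fin 4) ℝ, IsClosedForm W ∧
      (∀ x v, v ≠ 0 → 0 < v ⬝ᵥ W x *ᵥ (J x *ᵥ v)) ∧ ∀ x, (J x)ᵀ * W x * J x = W x := by
  set e : P2 → Fin 4 → ℝ := fun u => ![u.1, u.2, 0, 0] with he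
  have se : ContDiff ℝ ∞ e := contDiff_pi.2 fun a => by
    fin_cases a <;> simp [he] <;> fun_prop
  set B : P2 → Matrix (Fin 4) (Fin 4) ℝ := fun u => J (e u) with hB
  have eq : ∀ x, J x = B (base x) := fun x => hdep _ _ (by simp [he, base]) (by simp [he, base])
  set j : P2 → M2 := fun u => !![B u 0 0, B u 0 1; B u 1 0, B u 1 1] with hjd
  set i : P2 → M2 := fun u => !![B u 2 2, B u 2 3; B u 3 2, B u 3 3] with hid
  set K : P2 → M2 := fun u => !![B u 2 0, B u 2 1; B u 3 0, B u 3 1] with hKd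
  have sB : ∀ a b, ContDiff ℝ ∞ fun u => B u a b := fun a b => (hsm a b).comp se
  have smk : ∀ a b c d : Fin 4, ∀ p q, ContDiff ℝ ∞
      fun u => (!![B u a c, B u a d; B u b c, B u b d] : M2) p q := fun a b c d p q => by
    fin_cases p <;> fin_cases q <;> simp [sB]
  have pB : Periodic2 (1, 0) (0, 1) B := fun u => by
    constructor
    · simp only [hB]
      rw [← hper (e u) 0]
      apply hdep <;> simp [he]
    · simp only [hB]
      rw [← hper (e u) 1]
      apply hdep <;> simp [he]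
  have key : ∀ u, i u * i u = -1 ∧ j u * j u = -1 ∧ K u * j u = -(i u * K u) := fun u => by
    have h : ∀ a b, (B u * B u) a b = (-1 : Matrix (Fin 4) (Fin 4) ℝ) a b := fun a b => by
      simp only [hB, hJ]
    obtain ⟨z1, z2, z3, z4⟩ := hfib (e u)
    refine ⟨?_, ?_, ?_⟩ <;> ext p q <;> fin_cases p <;> fin_cases q
    · have := h 2 2; simp [hid, hB, Matrix.mul_apply, Fin.sum_univ_four, Fin.sum_univ_two, z1, z2, z3, z4] at this ⊢; linarith
    · have := h 2 3; simp [hid, hB, Matrix.mul_apply, Fin.sum_univ_four, Fin.sum_univ_two, z1, z2, z3, z4] at this ⊢; linarith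
    · have := h 3 2; simp [hid, hB, Matrix.mul_apply, Fin.sum_univ_four, Fin.sum_univ_two, z1, z2, z3, z4] at this ⊢; linarith
    · have := h 3 3; simp [hid, hB, Matrix.mul_apply, Fin.sum_univ_four, Fin.sum_univ_two, z1, z2, z3, z4] at this ⊢; linarith
    · have := h 0 0; simp [hjd, hB, Matrix.mul_apply, Fin.sum_univ_four, Fin.sum_univ_two, z1, z2, z3, z4] at this ⊢; linarith
    · have := h 0 1; simp [hjd, hB, Matrix.mul_apply, Fin.sum_univ_four, Fin.sum_univ_two, z1, z2, z3, z4] at this ⊢; linarith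
    · have := h 1 0; simp [hjd, hB, Matrix.mul_apply, Fin.sum_univ_four, Fin.sum_univ_two, z1, z2, z3, z4] at this ⊢; linarith
    · have := h 1 1; simp [hjd, hB, Matrix.mul_apply, Fin.sum_univ_four, Fin.sum_univ_two, z1, z2, z3, z4] at this ⊢; linarith
    · have := h 2 0; simp [hid, hjd, hKd, hB, Matrix.mul_apply, Fin.sum_univ_four, Fin.sum_univ_two, z1, z2, z3, z4] at this ⊢; linarith
    · have := h 2 1; simp [hid, hjd, hKd, hB, Matrix.mul_apply, Fin.sum_univ_four, Fin.sum_univ_two, z1, z2, z3, z4] at this ⊢; linarith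
    · have := h 3 0; simp [hid, hjd, hKd, hB, Matrix.mul_apply, Fin.sum_univ_four, Fin.sum_univ_two, z1, z2, z3, z4] at this ⊢; linarith
    · have := h 3 1; simp [hid, hjd, hKd, hB, Matrix.mul_apply, Fin.sum_univ_four, Fin.sum_univ_two, z1, z2, z3, z4] at this ⊢; linarith
  obtain ⟨L, sL, pL, cL, eL⟩ := exists_closed (i := i) (j := j) (K := K)
    (smk 2 3 2 3) (smk 0 1 0 1) (smk 2 3 0 1)
    (fun u => ⟨by simp only [hid, (pB u).1], by simp only [hid, (pB u).2]⟩)
    (fun u => ⟨by simp only [hjd, (pB u).1], by simp only [hjd, (pB u).2]⟩)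
    (fun u => ⟨by simp only [hKd, (pB u).1], by simp only [hKd, (pB u).2]⟩)
    (fun u => (key u).1) (fun u => (key u).2.1) (fun u => (key u).2.2)
  set s : ℝ := j 0 1 0 with hs
  set t : ℝ := i 0 1 0 with ht
  have sgn : ∀ {M : P2 → M2}, (∀ c d, ContDiff ℝ ∞ fun u => M u c d) →
      (∀ u, M u * M u = -1) → ∀ u, 0 < M u 1 0 * M 0 1 0 := fun {M} sM hM u => by
    by_contra hn
    push_neg at hn
    have hc : Continuous fun v => M v 1 0 * M 0 1 0 := (sM 1 0).continuous.mul continuous_const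
    obtain ⟨c, hc0⟩ := intermediate_value_univ u 0 hc ⟨hn, mul_self_nonneg _⟩
    rcases mul_eq_zero.1 hc0 with h | h <;> exact (sq_neg_one (hM _)).2.2 h
  have pw : ∀ x, (J x)ᵀ * formOf (fun u => s + t * (L u 0 0 * L u 1 1 - L u 0 1 * L u 1 0))
        (fun u a => -(t * L u 1 a)) (fun u a => t * L u 0 a) t x * J x
        = formOf (fun u => s + t * (L u 0 0 * L u 1 1 - L u 0 1 * L u 1 0))
        (fun u a => -(t * L u 1 a)) (fun u a => t * L u 0 a) t x ∧
      ∀ v : Fin 4 → ℝ, v ⬝ᵥ formOf (fun u => s + t * (L u 0 0 * L u 1 1 - L u 0 1 * L u 1 0))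
        (fun u a => -(t * L u 1 a)) (fun u a => t * L u 0 a) t x *ᵥ (J x *ᵥ v)
        = s * (j (base x) 1 0 * v 0 ^ 2 - 2 * j (base x) 0 0 * (v 0 * v 1)
            - j (base x) 0 1 * v 1 ^ 2)
          + t * (i (base x) 1 0 * (L (base x) 0 0 * v 0 + L (base x) 0 1 * v 1 + v 2) ^ 2
            - 2 * i (base x) 0 0 * ((L (base x) 0 0 * v 0 + L (base x) 0 1 * v 1 + v 2)
              * (L (base x) 1 0 * v 0 + L (base x) 1 1 * v 1 + v 3))
            - i (base x) 0 1 * (L (base x) 1 0 * v 0 + L (base x) 1 1 * v 1 + v 3) ^ 2) := by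
    intro x
    set u := base x with hu'
    have hE : ∀ p q, (i u * L u - L u * j u) p q = K u p q := fun p q => by rw [eL u]
    have E00 := hE 0 0
    have E01 := hE 0 1
    have E10 := hE 1 0
    have E11 := hE 1 1
    have tj := (sq_neg_one (key u).2.1).1
    have ti := (sq_neg_one (key u).1).1
    simp [hid, hjd, hKd, hB, Matrix.mul_apply, Matrix.vecMul, dotProduct, Fin.sum_univ_two] at tj ti E00 E01 E10 E11
    rw [eq x]
    simp only [hB, hid, hjd, ← hu']
    exact pointwise s t (hfib (e u)) (hJ (e u)) tj ti E00.symm E01.symm E10.symm E11.symm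
      (by simp [formOf, ← hu'])
  refine ⟨formOf (fun u => s + t * (L u 0 0 * L u 1 1 - L u 0 1 * L u 1 0))
    (fun u a => -(t * L u 1 a)) (fun u a => t * L u 0 a) t, ?_, fun x v hv => ?_, fun x => ?_⟩
  · refine isClosedForm_formOf t
      (contDiff_const.add (contDiff_const.mul (((sL 0 0).mul (sL 1 1)).sub ((sL 0 1).mul (sL 1 0)))))
      (fun a => (contDiff_const.mul (sL 1 a)).neg) (fun a => contDiff_const.mul (sL 0 a))
      (fun u => ⟨by simp only [(pL u).1], by simp only [(pL u).2]⟩)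
      (fun u => ⟨by simp only [(pL u).1], by simp only [(pL u).2]⟩)
      (fun u => ⟨by simp only [(pL u).1], by simp only [(pL u).2]⟩)
      (fun u => ?_) (fun u => ?_)
    · simp only [fderiv_fun_neg, fderiv_const_mul ((sL 1 _).differentiable (by simp) u)]
      simp [cL u 1]
    · simp only [fderiv_const_mul ((sL 0 _).differentiable (by simp) u)]
      simp [cL u 0]
  · set u := base x with hu'
    obtain ⟨-, ej⟩ := pw x
    rw [ej v]
    have pos : ∀ {M : M2} {r : ℝ}, M * M = -1 → 0 < M 1 0 * r → ∀ a b : ℝ, (a ≠ 0 ∨ b ≠ 0) →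
        0 < r * (M 1 0 * a ^ 2 - 2 * M 0 0 * (a * b) - M 0 1 * b ^ 2) := fun {M r} hM hr a b hab => by
      have h := mul_pos hr (quad_pos hM hab)
      have h2 : (0 : ℝ) < M 1 0 ^ 2 := by
        have := (sq_neg_one hM).2.2
        positivity
      by_contra hn
      push_neg at hn
      nlinarith [mul_nonpos_of_nonpos_of_nonneg hn h2.le]
    have nn : ∀ {M : M2} {r : ℝ}, M * M = -1 → 0 < M 1 0 * r → ∀ a b : ℝ,
        0 ≤ r * (M 1 0 * a ^ 2 - 2 * M 0 0 * (a * b) - M 0 1 * b ^ 2) := fun {M r} hM hr a b => by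
      by_cases hab : a ≠ 0 ∨ b ≠ 0
      · exact (pos hM hr a b hab).le
      · push_neg at hab; simp [hab.1, hab.2]
    by_cases hu : v 0 ≠ 0 ∨ v 1 ≠ 0
    · exact add_pos_of_pos_of_nonneg (pos (key u).2.1 (sgn (smk 0 1 0 1) (fun u => (key u).2.1) u) _ _ hu)
        (nn (key u).1 (sgn (smk 2 3 2 3) (fun u => (key u).1) u) _ _)
    · push_neg at hu
      refine add_pos_of_nonneg_of_pos (nn (key u).2.1 (sgn (smk 0 1 0 1) (fun u => (key u).2.1) u) _ _)
        (pos (key u).1 (sgn (smk 2 3 2 3) (fun u => (key u).1) u) _ _ ?_)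
      by_contra hc
      push_neg at hc
      simp [hu.1, hu.2] at hc
      exact hv (funext fun a => by fin_cases a <;> simp [hu.1, hu.2, hc.1, hc.2])
  · exact (pw x).1

end Vale.Agent.P204
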