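import Vale.Agent.P204.Basic

/-! Extending a class positive on the complex lines in the fibres to a compatible form (P204). -/

namespace Vale.Agent.P204

open scoped ContDiff Matrix
open Matrix Set

section Pointwise

variable (A B : Matrix (Fin 4) (Fin 4) ℝ)

/-- The first row of `A`, i.e. the form `dx₀ ∘ A`. -/
def mu : Fin 4 → ℝ := A 0

/-- The form `dx₀`. -/
def nu : Fin 4 → ℝ := Pi.single 0 1

/-- The squared length of the fibre part of `mu`. -/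
def nrm : ℝ := A 0 1 ^ 2 + A 0 2 ^ 2 + A 0 3 ^ 2

/-- A vector with `nu = 1` and `mu = 0`. -/
noncomputable def eVec : Fin 4 → ℝ :=
  ![1, -(A 0 0 / nrm A) * A 0 1, -(A 0 0 / nrm A) * A 0 2, -(A 0 0 / nrm A) * A 0 3]

/-- The image of `eVec`. -/
noncomputable def fVec : Fin 4 → ℝ := A *ᵥ eVec A

/-- Projection to the kernel of `nu` and `mu`. -/
noncomputable def proj : Matrix (Fin 4) (Fin 4) ℝ :=
  1 - vecMulVec (eVec A) nu + vecMulVec (fVec A) (mu A)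

/-- The mixed part. -/
noncomputable def phi : Fin 4 → ℝ := fVec A ᵥ* B ᵥ* proj A

/-- The compatible extension. -/
noncomputable def ext' (K : ℝ) : Matrix (Fin 4) (Fin 4) ℝ :=
  (proj A)ᵀ * B * proj A - vecMulVec (mu A) (phi A B) + vecMulVec (phi A B) (mu A)
    + vecMulVec nu (phi A B ᵥ* A) - vecMulVec (phi A B ᵥ* A) nu
    - K • (vecMulVec nu (mu A) - vecMulVec (mu A) nu)

theorem nu_dot (v : Fin 4 → ℝ) : nu ⬝ᵥ v = v 0 := by simp [nu]

theorem mu_dot (v : Fin 4 → ℝ) : mu A ⬝ᵥ v = (A *ᵥ v) 0 := rfl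

theorem bil_vecMulVec (a b v w : Fin 4 → ℝ) :
    v ⬝ᵥ vecMulVec a b *ᵥ w = (a ⬝ᵥ v) * (b ⬝ᵥ w) := by
  rw [vecMulVec_mulVec]
  simp [dotProduct_comm v a]
  ring

theorem bil_congr (P M : Matrix (Fin 4) (Fin 4) ℝ) (v w : Fin 4 → ℝ) :
    v ⬝ᵥ (Pᵀ * M * P) *ᵥ w = (P *ᵥ v) ⬝ᵥ M *ᵥ (P *ᵥ w) := by
  rw [Matrix.mul_assoc, ← Matrix.mulVec_mulVec, ← Matrix.mulVec_mulVec, dotProduct_mulVec,
    Matrix.vecMul_transpose]

theorem matrix_ext {M N : Matrix (Fin 4) (Fin 4) ℝ}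
    (h : ∀ v w : Fin 4 → ℝ, v ⬝ᵥ M *ᵥ w = v ⬝ᵥ N *ᵥ w) : M = N := by
  ext a b
  simpa using h (Pi.single a 1) (Pi.single b 1)

theorem bil_skew (hB : ∀ a b, B b a = -B a b) (v w : Fin 4 → ℝ) :
    w ⬝ᵥ B *ᵥ v = -(v ⬝ᵥ B *ᵥ w) := by
  simp only [dot_mulVec, ← Finset.sum_neg_distrib]
  rw [Finset.sum_comm]
  refine Finset.sum_congr rfl fun a _ => Finset.sum_congr rfl fun b _ => ?_
  rw [hB a b]; ring

variable (hA : A * A = -1)

include hA in
theorem apply_apply (v : Fin 4 → ℝ) : A *ᵥ (A *ᵥ v) = -v := by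
  rw [Matrix.mulVec_mulVec, hA, Matrix.neg_mulVec, Matrix.one_mulVec]

include hA in
theorem nrm_ne : nrm A ≠ 0 := by
  intro h
  have hn : A 0 1 ^ 2 + A 0 2 ^ 2 + A 0 3 ^ 2 = 0 := h
  have h1 : A 0 1 = 0 := by nlinarith [sq_nonneg (A 0 2), sq_nonneg (A 0 3)]
  have h2 : A 0 2 = 0 := by nlinarith [sq_nonneg (A 0 1), sq_nonneg (A 0 3)]
  have h3 : A 0 3 = 0 := by nlinarith [sq_nonneg (A 0 1), sq_nonneg (A 0 2)]
  have := congrFun (congrFun hA 0) 0
  simp [Matrix.mul_apply, Fin.sum_univ_four, h1, h2, h3] at this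
  nlinarith [mul_self_nonneg (A 0 0)]

include hA in
theorem eVec_spec : eVec A 0 = 1 ∧ (A *ᵥ eVec A) 0 = 0 := by
  refine ⟨rfl, ?_⟩
  have := nrm_ne A hA
  simp [Matrix.mulVec, dotProduct, Fin.sum_univ_four, eVec]
  field_simp
  unfold nrm
  ring

theorem proj_apply (v : Fin 4 → ℝ) :
    proj A *ᵥ v = v - v 0 • eVec A + (A *ᵥ v) 0 • fVec A := by
  simp [proj, Matrix.add_mulVec, Matrix.sub_mulVec, vecMulVec_mulVec, nu_dot, mu_dot]

include hA in
theorem proj_mem (v : Fin 4 → ℝ) : (proj A *ᵥ v) 0 = 0 ∧ (A *ᵥ (proj A *ᵥ v)) 0 = 0 := by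
  obtain ⟨h1, h2⟩ := eVec_spec A hA
  rw [proj_apply]
  constructor
  · simp [fVec, h1, h2]
  · rw [Matrix.mulVec_add, Matrix.mulVec_sub, Matrix.mulVec_smul, Matrix.mulVec_smul, fVec,
      apply_apply A hA]
    simp [h1, h2]

include hA in
theorem proj_comm (v : Fin 4 → ℝ) : proj A *ᵥ (A *ᵥ v) = A *ᵥ (proj A *ᵥ v) := by
  rw [proj_apply, proj_apply, apply_apply A hA, Matrix.mulVec_add, Matrix.mulVec_sub,
    Matrix.mulVec_smul, Matrix.mulVec_smul, fVec, apply_apply A hA, Pi.neg_apply, neg_smul,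
    smul_neg]
  abel

theorem phi_dot (v : Fin 4 → ℝ) : phi A B ⬝ᵥ v = fVec A ⬝ᵥ B *ᵥ (proj A *ᵥ v) := by
  rw [phi, ← dotProduct_mulVec, ← dotProduct_mulVec]

theorem bil_ext (K : ℝ) (v w : Fin 4 → ℝ) : v ⬝ᵥ ext' A B K *ᵥ w =
    (proj A *ᵥ v) ⬝ᵥ B *ᵥ (proj A *ᵥ w) - (A *ᵥ v) 0 * (phi A B ⬝ᵥ w)
      + (phi A B ⬝ᵥ v) * (A *ᵥ w) 0 + v 0 * (phi A B ⬝ᵥ (A *ᵥ w))
      - (phi A B ⬝ᵥ (A *ᵥ v)) * w 0 - K * (v 0 * (A *ᵥ w) 0 - (A *ᵥ v) 0 * w 0) := by
  simp only [ext', Matrix.add_mulVec, Matrix.sub_mulVec, Matrix.smul_mulVec, dotProduct_add,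
    dotProduct_sub, dotProduct_smul, bil_vecMulVec, bil_congr, nu_dot, mu_dot,
    ← dotProduct_mulVec, smul_eq_mul]

theorem ext_skew (hB : ∀ a b, B b a = -B a b) (K : ℝ) (a b : Fin 4) :
    ext' A B K b a = -ext' A B K a b := by
  have h : ∀ v w : Fin 4 → ℝ, w ⬝ᵥ ext' A B K *ᵥ v = -(v ⬝ᵥ ext' A B K *ᵥ w) := by
    intro v w
    rw [bil_ext, bil_ext, bil_skew B hB (proj A *ᵥ v) (proj A *ᵥ w)]
    ring
  simpa using h (Pi.single a 1) (Pi.single b 1)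

include hA in
theorem ext_fibre (hB : ∀ a b, B b a = -B a b) (K : ℝ) {v w : Fin 4 → ℝ} (hv : v 0 = 0)
    (hw : w 0 = 0) : v ⬝ᵥ ext' A B K *ᵥ w = v ⬝ᵥ B *ᵥ w := by
  have dec : ∀ u : Fin 4 → ℝ, u 0 = 0 → u = proj A *ᵥ u + (-((A *ᵥ u) 0)) • fVec A := by
    intro u hu
    rw [proj_apply, hu, zero_smul, neg_smul]
    abel
  have hFF : fVec A ⬝ᵥ B *ᵥ fVec A = 0 := by
    have := bil_skew B hB (fVec A) (fVec A)
    linarith
  rw [bil_ext, phi_dot, phi_dot, phi_dot, phi_dot, hv, hw]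
  conv_rhs => rw [dec v hv, dec w hw]
  simp only [Matrix.mulVec_add, Matrix.mulVec_smul, dotProduct_add, add_dotProduct,
    smul_dotProduct, dotProduct_smul, smul_eq_mul, hFF]
  rw [bil_skew B hB (fVec A) (proj A *ᵥ v)]
  ring

variable (hpos : ∀ v : Fin 4 → ℝ, v ≠ 0 → v 0 = 0 → (A *ᵥ v) 0 = 0 → 0 < v ⬝ᵥ B *ᵥ (A *ᵥ v))

include hA hpos in
theorem invariant_line (hB : ∀ a b, B b a = -B a b) {l m : Fin 4 → ℝ} (hl : l 0 = 0)
    (hl' : (A *ᵥ l) 0 = 0) (hm : m 0 = 0) (hm' : (A *ᵥ m) 0 = 0) :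
    (A *ᵥ l) ⬝ᵥ B *ᵥ (A *ᵥ m) = l ⬝ᵥ B *ᵥ m := by
  by_cases hl0 : l = 0
  · simp [hl0]
  obtain ⟨he, he'⟩ := eVec_spec A hA
  have hF0 : fVec A 0 = 0 := he'
  have hF1 : (A *ᵥ fVec A) 0 = -1 := by rw [fVec, apply_apply A hA]; simp [he]
  have hAl : (A *ᵥ (A *ᵥ l)) 0 = 0 := by rw [apply_apply A hA]; simp [hl]
  have hli : LinearIndependent ℝ ![eVec A, fVec A, l, A *ᵥ l] := by
    rw [Fintype.linearIndependent_iff]
    intro c hc
    have hc' : c 0 • eVec A + c 1 • fVec A + c 2 • l + c 3 • (A *ᵥ l) = 0 := by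
      simpa [Fin.sum_univ_four] using hc
    have c0 : c 0 = 0 := by
      have := congrFun hc' 0
      simpa [he, hF0, hl, hl'] using this
    have c1 : c 1 = 0 := by
      have := congrFun (congrArg (A *ᵥ ·) hc') 0
      simpa [Matrix.mulVec_add, Matrix.mulVec_smul, he', hF1, hl', apply_apply A hA, hl, -Matrix.mulVec_mulVec] using this
    have e1 : c 2 • l + c 3 • (A *ᵥ l) = 0 := by simpa [c0, c1] using hc'
    have e2 : c 2 • (A *ᵥ l) - c 3 • l = 0 := by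
      have := congrArg (A *ᵥ ·) e1
      simpa [Matrix.mulVec_add, Matrix.mulVec_smul, apply_apply A hA, sub_eq_add_neg] using this
    have e3 : (c 2 ^ 2 + c 3 ^ 2) • l = 0 := by
      have e : (c 2 ^ 2 + c 3 ^ 2) • l =
          c 2 • (c 2 • l + c 3 • (A *ᵥ l)) - c 3 • (c 2 • (A *ᵥ l) - c 3 • l) := by
        module
      rw [e, e1, e2]; simp
    have h23 : c 2 ^ 2 + c 3 ^ 2 = 0 := (smul_eq_zero.1 e3).resolve_right hl0
    have c2 : c 2 = 0 := by nlinarith [sq_nonneg (c 3)]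
    have c3 : c 3 = 0 := by nlinarith [sq_nonneg (c 2)]
    intro i
    fin_cases i <;> assumption
  have hspan := hli.span_eq_top_of_card_eq_finrank (by simp)
  have hm_mem : m ∈ Submodule.span ℝ (Set.range ![eVec A, fVec A, l, A *ᵥ l]) := by
    rw [hspan]; trivial
  obtain ⟨c, hc⟩ := Submodule.mem_span_range_iff_exists_fun ℝ |>.1 hm_mem
  have hc' : c 0 • eVec A + c 1 • fVec A + c 2 • l + c 3 • (A *ᵥ l) = m := by
    simpa [Fin.sum_univ_four] using hc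
  have c0 : c 0 = 0 := by
    have := congrFun hc' 0
    simpa [he, hF0, hl, hl', hm] using this
  have c1 : c 1 = 0 := by
    have := congrFun (congrArg (A *ᵥ ·) hc') 0
    simpa [Matrix.mulVec_add, Matrix.mulVec_smul, he', hF1, hl', apply_apply A hA, hl, hm', -Matrix.mulVec_mulVec] using this
  rw [← hc', c0, c1]
  simp only [zero_smul, zero_add, Matrix.mulVec_add, Matrix.mulVec_smul, apply_apply A hA,
    dotProduct_add, dotProduct_smul, smul_eq_mul, Matrix.mulVec_neg, dotProduct_neg]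
  have s1 := bil_skew B hB l (A *ᵥ l)
  have s2 := bil_skew B hB (A *ᵥ l) (A *ᵥ l)
  have s3 := bil_skew B hB l l
  linear_combination (c 2 / 2) * s2 - (c 2 / 2) * s3 - c 3 * s1

include hA hpos in
theorem ext_invariant (hB : ∀ a b, B b a = -B a b) (K : ℝ) :
    Aᵀ * ext' A B K * A = ext' A B K := by
  refine matrix_ext fun v w => ?_
  rw [bil_congr, bil_ext, bil_ext, proj_comm A hA, proj_comm A hA,
    invariant_line A B hA hpos hB (proj_mem A hA v).1 (proj_mem A hA v).2 (proj_mem A hA w).1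
      (proj_mem A hA w).2, apply_apply A hA, apply_apply A hA]
  simp only [Pi.neg_apply, dotProduct_neg]
  ring

include hA in
theorem ext_taming (K : ℝ) (v : Fin 4 → ℝ) :
    v ⬝ᵥ ext' A B K *ᵥ (A *ᵥ v) =
      v ⬝ᵥ ext' A B 0 *ᵥ (A *ᵥ v) + K * (v 0 ^ 2 + (A *ᵥ v) 0 ^ 2) := by
  rw [bil_ext, bil_ext, apply_apply A hA]
  simp only [Pi.neg_apply]
  ring

include hA hpos in
theorem ext_base_pos {v : Fin 4 → ℝ} (hv : v ≠ 0) (h0 : v 0 = 0) (h1 : (A *ᵥ v) 0 = 0) :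
    0 < v ⬝ᵥ ext' A B 0 *ᵥ (A *ᵥ v) := by
  rw [bil_ext, proj_comm A hA, apply_apply A hA, h1, h0, Pi.neg_apply, h0]
  have hp : proj A *ᵥ v = v := by rw [proj_apply, h0, h1]; simp
  simpa [hp] using hpos v hv h0 h1

end Pointwise

theorem contDiff_entries (A : ℝ → Matrix (Fin 4) (Fin 4) ℝ) (B : Matrix (Fin 4) (Fin 4) ℝ)
    (hsm : ∀ a b, ContDiff ℝ ∞ fun t => A t a b) (hA : ∀ t, A t * A t = -1) (K : ℝ)
    (a b : Fin 4) : ContDiff ℝ ∞ fun t => ext' (A t) B K a b := by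
  have he : ∀ i, ContDiff ℝ ∞ fun t => eVec (A t) i := by
    have hq : ContDiff ℝ ∞ fun t => A t 0 0 / nrm (A t) :=
      (hsm 0 0).div (((hsm 0 1).pow 2 |>.add ((hsm 0 2).pow 2)).add ((hsm 0 3).pow 2))
        fun t => nrm_ne _ (hA t)
    intro i
    fin_cases i
    · exact contDiff_const
    · exact hq.neg.mul (hsm 0 1)
    · exact hq.neg.mul (hsm 0 2)
    · exact hq.neg.mul (hsm 0 3)
  have hf : ∀ i, ContDiff ℝ ∞ fun t => fVec (A t) i := fun i => by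
    simp only [fVec, Matrix.mulVec, dotProduct]
    exact ContDiff.sum fun j _ => (hsm i j).mul (he j)
  have hmu : ∀ i, ContDiff ℝ ∞ fun t => mu (A t) i := fun i => hsm 0 i
  have hP : ∀ i j, ContDiff ℝ ∞ fun t => proj (A t) i j := fun i j => by
    simp only [proj, Matrix.add_apply, Matrix.sub_apply, Matrix.vecMulVec_apply]
    exact (contDiff_const.sub ((he i).mul contDiff_const)).add ((hf i).mul (hmu j))
  have hphi : ∀ j, ContDiff ℝ ∞ fun t => phi (A t) B j := fun j => by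
    simp only [phi, Matrix.vecMul, dotProduct]
    exact ContDiff.sum fun i _ =>
      (ContDiff.sum fun k _ => (hf k).mul contDiff_const).mul (hP i j)
  have hphiA : ∀ j, ContDiff ℝ ∞ fun t => (phi (A t) B ᵥ* A t) j := fun j => by
    simp only [Matrix.vecMul, dotProduct]
    exact ContDiff.sum fun i _ => (hphi i).mul (hsm i j)
  simp only [ext', Matrix.add_apply, Matrix.sub_apply, Matrix.smul_apply, Matrix.mul_apply,
    Matrix.transpose_apply, Matrix.vecMulVec_apply, smul_eq_mul]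
  exact ((((ContDiff.sum fun k _ => (ContDiff.sum fun l _ => (hP l a).mul contDiff_const).mul
    (hP k b)).sub ((hmu a).mul (hphi b))).add ((hphi a).mul (hmu b))).add
      (contDiff_const.mul (hphiA b))).sub ((hphiA a).mul contDiff_const) |>.sub
        (contDiff_const.mul ((contDiff_const.mul (hmu b)).sub ((hmu a).mul contDiff_const)))

theorem exists_constant (A : ℝ → Matrix (Fin 4) (Fin 4) ℝ) (B : Matrix (Fin 4) (Fin 4) ℝ)
    (hsm : ∀ a b, ContDiff ℝ ∞ fun t => A t a b) (hA : ∀ t, A t * A t = -1)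
    (hper : ∀ t, A (t + 1) = A t)
    (hpos : ∀ t v, v ≠ 0 → v 0 = 0 → (A t *ᵥ v) 0 = 0 → 0 < v ⬝ᵥ B *ᵥ (A t *ᵥ v)) :
    ∃ K : ℝ, ∀ t v, v ≠ 0 → 0 < v ⬝ᵥ ext' (A t) B K *ᵥ (A t *ᵥ v) := by
  let Q : ℝ × (Fin 4 → ℝ) → ℝ := fun p => p.2 ⬝ᵥ ext' (A p.1) B 0 *ᵥ (A p.1 *ᵥ p.2)
  let N : ℝ × (Fin 4 → ℝ) → ℝ := fun p => p.2 0 ^ 2 + (A p.1 *ᵥ p.2) 0 ^ 2
  have hcA : ∀ a b, Continuous fun p : ℝ × (Fin 4 → ℝ) => A p.1 a b := fun a b =>
    (hsm a b).continuous.comp continuous_fst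
  have hcE : ∀ a b, Continuous fun p : ℝ × (Fin 4 → ℝ) => ext' (A p.1) B 0 a b := fun a b =>
    (contDiff_entries A B hsm hA 0 a b).continuous.comp continuous_fst
  have hcv : ∀ i, Continuous fun p : ℝ × (Fin 4 → ℝ) => p.2 i := fun i =>
    (continuous_apply i).comp continuous_snd
  have hcAv : ∀ i, Continuous fun p : ℝ × (Fin 4 → ℝ) => (A p.1 *ᵥ p.2) i := fun i => by
    simp only [Matrix.mulVec, dotProduct]
    exact continuous_finsetSum _ fun j _ => (hcA i j).mul (hcv j)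
  have hQ : Continuous Q := by
    simp only [Q, dot_mulVec]
    exact continuous_finsetSum _ fun a _ => continuous_finsetSum _ fun b _ =>
      (hcv a).mul ((hcE a b).mul (hcAv b))
  have hN : Continuous N := ((hcv 0).pow 2).add ((hcAv 0).pow 2)
  let S : Set (ℝ × (Fin 4 → ℝ)) := Icc 0 1 ×ˢ Metric.sphere 0 1
  have hS : IsCompact S := isCompact_Icc.prod (isCompact_sphere 0 1)
  have hkey : ∀ p ∈ S, Q p ≤ 0 → 0 < N p := by
    intro p hp hq
    have hp0 : p.2 ≠ 0 := fun h => by simpa [h] using hp.2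
    by_contra hn
    have hn' : p.2 0 ^ 2 + (A p.1 *ᵥ p.2) 0 ^ 2 ≤ 0 := not_lt.1 hn
    have h0 : p.2 0 = 0 := by
      nlinarith [sq_nonneg ((A p.1 *ᵥ p.2) 0), sq_nonneg (p.2 0)]
    have h1 : (A p.1 *ᵥ p.2) 0 = 0 := by
      nlinarith [sq_nonneg ((A p.1 *ᵥ p.2) 0), sq_nonneg (p.2 0)]
    exact absurd hq (not_le.2 (ext_base_pos _ B (hA p.1) (hpos p.1) hp0 h0 h1))
  have hK : ∃ K : ℝ, 0 ≤ K ∧ ∀ p ∈ S, 0 < Q p + K * N p := by
    obtain ⟨C, hC⟩ := hS.exists_bound_of_continuousOn hQ.continuousOn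
    have hT : IsCompact (S ∩ Q ⁻¹' Iic 0) := hS.inter_right (isClosed_Iic.preimage hQ)
    rcases (S ∩ Q ⁻¹' Iic 0).eq_empty_or_nonempty with h | h
    · refine ⟨0, le_rfl, fun p hp => ?_⟩
      rw [zero_mul, add_zero]
      by_contra hq
      have : p ∈ S ∩ Q ⁻¹' Iic 0 := ⟨hp, not_lt.1 hq⟩
      rw [h] at this
      exact this
    · obtain ⟨q, hq, hqmin⟩ := hT.exists_isMinOn h hN.continuousOn
      have hm : 0 < N q := hkey q hq.1 hq.2
      refine ⟨(|C| + 1) / N q, by positivity, fun p hp => ?_⟩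
      by_cases hp' : Q p ≤ 0
      · have h1 : N q ≤ N p := hqmin ⟨hp, hp'⟩
        have h2 : |C| + 1 ≤ (|C| + 1) / N q * N p := by
          rw [div_mul_eq_mul_div, le_div_iff₀ hm]
          exact mul_le_mul_of_nonneg_left h1 (by positivity)
        have h3 : -|C| ≤ Q p := by
          have := hC p hp
          rw [Real.norm_eq_abs] at this
          linarith [neg_abs_le (Q p), le_abs_self C]
        linarith
      · have : 0 ≤ (|C| + 1) / N q * N p := by positivity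
        linarith [not_le.1 hp']
  obtain ⟨K, -, hK⟩ := hK
  refine ⟨K, fun t v hv => ?_⟩
  have hfr : A t = A (Int.fract t) := by
    have : Function.Periodic A 1 := hper
    have h := this.sub_int_mul_eq (x := t) ⌊t⌋
    rw [mul_one] at h
    exact h.symm
  rw [hfr]
  have hn : 0 < ‖v‖ := norm_pos_iff.2 hv
  have hp : (Int.fract t, ‖v‖⁻¹ • v) ∈ S :=
    ⟨⟨Int.fract_nonneg t, (Int.fract_lt_one t).le⟩, by simp [norm_smul, hn.ne']⟩
  have h := hK _ hp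
  simp only [Q, N] at h
  have e : Q (Int.fract t, ‖v‖⁻¹ • v) + K * N (Int.fract t, ‖v‖⁻¹ • v) =
      (‖v‖⁻¹) ^ 2 * (v ⬝ᵥ ext' (A (Int.fract t)) B K *ᵥ (A (Int.fract t) *ᵥ v)) := by
    rw [ext_taming (A (Int.fract t)) B (hA _) K v]
    simp only [Q, N, Matrix.mulVec_smul, smul_dotProduct, dotProduct_smul, Pi.smul_apply,
      smul_eq_mul]
    ring
  simp only [Q, N] at e
  rw [e] at h
  exact pos_of_mul_pos_right h (sq_nonneg _)

end Vale.Agent.P204
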