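import Vale.Agent.P205.Beltrami

/-! The real linear Beltrami equation on the torus (P204): series solution, following the
scalar case in `P205.BeltramiSeq`. -/

namespace Vale.Agent.P204.LinBeltrami

open Vale.Agent.P229 (P2)
open Vale.Agent.P205 (Periodic2 exists_max_periodic2)
open Vale.Agent.P205.Fourier
open Vale.Agent.P205.Beltrami hiding term rapid_term leibniz_bound term_decay exists_solution
open scoped ENNReal ContDiff ComplexConjugate
open Finset MeasureTheory

lemma neg_m1 (n : Z2) : conj (m1 e1 e2 (-n)) = m1 e1 e2 n := by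
  simp [m1_std, map_ofNat]

lemma neg_m2 (n : Z2) : conj (m2 e1 e2 (-n)) = m2 e1 e2 n := by
  simp [m2_std, map_ofNat]

lemma N_cc (k : ℕ) (c : Cf) : N k (cc c) = N k c := by
  simp only [N, cc, RCLike.enorm_conj]
  rw [← (Equiv.neg Z2).tsum_eq]
  simp [w_neg]

lemma rapid_cc {c : Cf} (hc : Rapid c) : Rapid (cc c) := fun k => by rw [N_cc]; exact hc k

/-- The operator `u ↦ μ u + ν conj u`. -/
noncomputable def op (μ ν u : Cf) : Cf := conv μ u + conv ν (cc u)

lemma rapid_op {μ ν u : Cf} (hμ : Rapid μ) (hν : Rapid ν) (hu : Rapid u) : Rapid (op μ ν u) :=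
  rapid_add (rapid_conv hμ hu) (rapid_conv hν (rapid_cc hu))

lemma mult_op {m : Z2 → ℂ} (hm : IsDeriv m) (hneg : ∀ n, conj (m (-n)) = m n) {μ ν u : Cf}
    (hμ : Rapid μ) (hν : Rapid ν) (hu : Rapid u) :
    mult m (op μ ν u) = op μ ν (mult m u) + op (mult m μ) (mult m ν) u := by
  have e : mult m (cc u) = cc (mult m u) := funext fun n => by simp [mult, cc, hneg]
  have d : mult m (op μ ν u) = mult m (conv μ u) + mult m (conv ν (cc u)) :=
    funext fun n => by simp [mult, op, mul_add]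
  rw [d, mult_conv hm hμ hu, mult_conv hm hν (rapid_cc hu), e, op, op]
  abel

/-- The square sum operator bound of `op`. -/
def OpBound2 (μ ν : Cf) (θ : ℝ≥0∞) : Prop := ∀ u, Rapid u → L2 (op μ ν u) ≤ θ * L2 u

lemma opBound2_of_le {μ ν : Cf} (hμ : Rapid μ) (hν : Rapid ν) {M : ℝ}
    (hM : ∀ y, ‖evS μ y‖ + ‖evS ν y‖ ≤ M) : OpBound2 μ ν (ENNReal.ofReal (M ^ 2)) := by
  intro u hu
  have hp : N 0 (op μ ν u) ≠ ⊤ := (rapid_op hμ hν hu) 0
  rw [L2_eq hp, L2_eq (hu 0), ← ENNReal.ofReal_mul (sq_nonneg _)]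
  refine ENNReal.ofReal_le_ofReal ?_
  rw [← parseval hp, ← parseval (hu 0), ← integral_const_mul]
  have hi : ∀ {c : Cf}, N 0 c ≠ ⊤ → Integrable (fun y => ‖evS c y‖ ^ 2) square := fun {c} hc =>
    Integrable.of_bound ((continuous_ev hc).norm.pow 2).aestronglyMeasurable ((N 0 c).toReal ^ 2)
      (Filter.Eventually.of_forall fun y => by
        rw [norm_pow, norm_norm]; exact pow_le_pow_left₀ (norm_nonneg _) (norm_evS_le hc y) 2)
  refine integral_mono (hi hp) ((hi (hu 0)).const_mul _) fun y => ?_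
  dsimp only
  rw [op, evS_add (rapid_conv hμ hu 0) (rapid_conv hν (rapid_cc hu) 0),
    evS_conv (hμ 0) (hu 0), evS_conv (hν 0) (rapid_cc hu 0), evS_cc, ← mul_pow]
  refine pow_le_pow_left₀ (norm_nonneg _) ((norm_add_le _ _).trans ?_) 2
  rw [norm_mul, norm_mul, RCLike.norm_conj, ← add_mul]
  exact mul_le_mul_of_nonneg_right (hM y) (norm_nonneg _)

lemma exists_opBound2 (μ ν : Cf) (hμ : Rapid μ) (hν : Rapid ν) :
    ∃ θ, θ ≠ ⊤ ∧ OpBound2 μ ν θ :=
  ⟨_, ENNReal.ofReal_ne_top,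
    opBound2_of_le hμ hν fun y => add_le_add (norm_evS_le (hμ 0) y) (norm_evS_le (hν 0) y)⟩

/-- The operator keeps its operator bound on derivatives up to lower orders. -/
lemma leibniz_bound {m : Z2 → ℂ} (hm : IsDeriv m)
    (hneg : ∀ n, conj (m (-n)) = m n) :
    ∀ (j : ℕ) (μ ν : Cf), Rapid μ → Rapid ν → ∀ θ, OpBound2 μ ν θ → ∀ δ : ℝ, 0 < δ → δ ≤ 1 →
      ∃ C : ℝ≥0∞, C ≠ ⊤ ∧ ∀ u, Rapid u → Q m j (op μ ν u) ≤
        ENNReal.ofReal (1 + δ) * θ * Q m j u + C * ∑ i ∈ range j, Q m i u := by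
  intro j
  induction j with
  | zero =>
    intro μ ν _ _ θ h δ hδ _
    refine ⟨0, ENNReal.zero_ne_top, fun u hu => ?_⟩
    simp only [Q_zero, Finset.range_zero, Finset.sum_empty, mul_zero, add_zero, mul_assoc]
    exact (h u hu).trans (le_mul_of_one_le_left' (ENNReal.one_le_ofReal.2 (by linarith)))
  | succ j ih =>
    intro μ ν hμ hν θ h δ hδ hδ1
    have hμ' : Rapid (mult m μ) := rapid_mult hm hμ
    have hν' : Rapid (mult m ν) := rapid_mult hm hν
    obtain ⟨θ', hθ', h'⟩ := exists_opBound2 _ _ hμ' hν'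
    obtain ⟨C1, hC1, b1⟩ := ih μ ν hμ hν θ h (δ / 3) (by positivity) (by linarith)
    obtain ⟨C2, hC2, b2⟩ := ih _ _ hμ' hν' θ' h' 1 one_pos le_rfl
    refine ⟨ENNReal.ofReal (1 + δ / 3) * C1
      + ENNReal.ofReal (1 + (δ / 3)⁻¹) * (ENNReal.ofReal (1 + 1) * θ' + C2), by finiteness, ?_⟩
    intro u hu
    have hu' : Rapid (mult m u) := rapid_mult hm hu
    rw [← Q_mult, mult_op hm hneg hμ hν hu]
    refine (Q_add_le m j (by positivity : (0:ℝ) < δ / 3) _ _).trans ?_
    refine (add_le_add (mul_le_mul' le_rfl (b1 _ hu')) (mul_le_mul' le_rfl (b2 _ hu))).trans ?_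
    simp only [Q_mult]
    set S := ∑ i ∈ range (j + 1), Q m i u
    have s1 : ∑ i ∈ range j, Q m (i + 1) u ≤ S := by
      simp only [S, Finset.sum_range_succ']
      exact le_self_add
    have s2 : Q m j u ≤ S := Finset.single_le_sum (f := fun i => Q m i u) (fun _ _ => zero_le)
      (Finset.self_mem_range_succ j)
    have s3 : ∑ i ∈ range j, Q m i u ≤ S := by
      simp only [S, Finset.sum_range_succ]
      exact le_self_add
    have hδδ : ENNReal.ofReal (1 + δ / 3) * ENNReal.ofReal (1 + δ / 3)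
        ≤ ENNReal.ofReal (1 + δ) := by
      rw [← ENNReal.ofReal_mul (by positivity)]
      exact ENNReal.ofReal_le_ofReal (by nlinarith)
    calc _ ≤ ENNReal.ofReal (1 + δ / 3) * (ENNReal.ofReal (1 + δ / 3) * θ * Q m (j + 1) u + C1 * S)
          + ENNReal.ofReal (1 + (δ / 3)⁻¹) * (ENNReal.ofReal (1 + 1) * θ' * S + C2 * S) :=
            add_le_add (mul_le_mul' le_rfl (add_le_add le_rfl (mul_le_mul' le_rfl s1)))
              (mul_le_mul' le_rfl
                (add_le_add (mul_le_mul' le_rfl s2) (mul_le_mul' le_rfl s3)))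
      _ = ENNReal.ofReal (1 + δ / 3) * ENNReal.ofReal (1 + δ / 3) * θ * Q m (j + 1) u
          + (ENNReal.ofReal (1 + δ / 3) * C1
            + ENNReal.ofReal (1 + (δ / 3)⁻¹) * (ENNReal.ofReal (1 + 1) * θ' + C2)) * S := by ring
      _ ≤ _ := by gcongr

/-- The terms of the Neumann series. -/
noncomputable def term (μ ν g : Cf) : ℕ → Cf
  | 0 => g
  | i + 1 => op μ ν (bT (term μ ν g i))

lemma rapid_term {μ ν g : Cf} (hμ : Rapid μ) (hν : Rapid ν) (hg : Rapid g) :
    ∀ i, Rapid (term μ ν g i)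
  | 0 => hg
  | i + 1 => rapid_op hμ hν (rapid_bT (rapid_term hμ hν hg i))

/-- Geometric decay in every order. -/
lemma term_decay {m : Z2 → ℂ} (hm : IsDeriv m)
    (hneg : ∀ n, conj (m (-n)) = m n) {μ ν g : Cf} (hμ : Rapid μ) (hν : Rapid ν) (hg : Rapid g)
    {θ r : ℝ} (hθ : 0 ≤ θ) (hθr : θ < r) (h : OpBound2 μ ν (ENNReal.ofReal θ)) :
    ∀ j, ∃ K : ℝ≥0∞, K ≠ ⊤ ∧ ∀ i, Q m j (term μ ν g i) ≤ K * ENNReal.ofReal r ^ i := by
  intro j
  induction j using Nat.strong_induction_on with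
  | _ j ih =>
    choose! K hK hdec using ih
    obtain ⟨δ, hδ, hδ1, hq⟩ : ∃ δ : ℝ, 0 < δ ∧ δ ≤ 1 ∧ (1 + δ) * θ < r := by
      refine ⟨min 1 ((r - θ) / (2 * (θ + 1))), lt_min one_pos (by
        exact div_pos (by linarith) (by linarith)), min_le_left _ _, ?_⟩
      have h1 : min 1 ((r - θ) / (2 * (θ + 1))) ≤ (r - θ) / (2 * (θ + 1)) := min_le_right _ _
      rw [le_div_iff₀ (by linarith : (0:ℝ) < 2 * (θ + 1))] at h1
      have h0 : 0 ≤ min 1 ((r - θ) / (2 * (θ + 1))) :=
        le_min zero_le_one (div_nonneg (by linarith) (by linarith))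
      nlinarith
    obtain ⟨C, hC, hb⟩ := leibniz_bound hm hneg j μ ν hμ hν _ h δ hδ hδ1
    set R := ENNReal.ofReal r with hR
    set q := ENNReal.ofReal (1 + δ) * ENNReal.ofReal θ with hq'
    have hqR : q < R := by
      rw [hq', ← ENNReal.ofReal_mul (by positivity)]
      exact (ENNReal.ofReal_lt_ofReal_iff (lt_of_le_of_lt hθ hθr)).2 hq
    have hne : R - q ≠ 0 := (tsub_pos_iff_lt.2 hqR).ne'
    have hnt : R - q ≠ ⊤ := ne_top_of_le_ne_top ENNReal.ofReal_ne_top tsub_le_self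
    set S := ∑ i ∈ range j, K i
    have hS : S ≠ ⊤ := ENNReal.sum_ne_top.2 fun i hi => hK i (Finset.mem_range.1 hi)
    refine ⟨max (Q m j g) (C * S / (R - q)),
      (max_lt (Q_ne_top hm hg j).lt_top (ENNReal.div_ne_top (ENNReal.mul_ne_top hC hS) hne).lt_top).ne, ?_⟩
    set M := max (Q m j g) (C * S / (R - q))
    intro i
    induction i with
    | zero => simp only [term, pow_zero, mul_one, M]; exact le_max_left _ _
    | succ i hi =>
      have hM : C * S ≤ M * (R - q) := by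
        rw [← ENNReal.div_le_iff hne hnt]
        exact le_max_right _ _
      calc Q m j (term μ ν g (i + 1))
          ≤ q * Q m j (term μ ν g i) + C * ∑ l ∈ range j, Q m l (term μ ν g i) := by
            refine (hb _ (rapid_bT (rapid_term hμ hν hg i))).trans ?_
            simp only [Q_bT, hq', le_refl]
        _ ≤ q * (M * R ^ i) + C * ∑ l ∈ range j, K l * R ^ i := by
            gcongr with l hl
            exact hdec l (Finset.mem_range.1 hl) i
        _ = (M * q + C * S) * R ^ i := by rw [← Finset.sum_mul]; ring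
        _ ≤ (M * q + M * (R - q)) * R ^ i := by gcongr
        _ = M * R ^ (i + 1) := by
            rw [← mul_add, add_tsub_cancel_of_le hqR.le, pow_succ]; ring

/-- Exchange of sums. -/
lemma conv_tsum {c : Cf} (hc : N 0 c ≠ ⊤) {f : ℕ → Cf} {b : ℕ → ℝ} (hb : Summable b)
    (hf : ∀ i m, ‖f i m‖ ≤ b i) (n : Z2) :
    Summable (fun i => conv c (f i) n) ∧
      ∑' i, conv c (f i) n = conv c (fun m => ∑' i, f i m) n := by
  have hu : Summable (Function.uncurry fun i m => c m * f i (n - m)) := by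
    refine Summable.of_norm_bounded (hb.mul_of_nonneg (summable_norm_of_N hc)
      (fun i => (norm_nonneg _).trans (hf i 0)) fun m => norm_nonneg _) fun p => ?_
    simp only [Function.uncurry, norm_mul]
    rw [mul_comm]
    exact mul_le_mul_of_nonneg_right (hf _ _) (norm_nonneg _)
  refine ⟨hu.prod, ?_⟩
  simp only [conv]
  rw [Summable.tsum_comm hu |> fun h => h.symm]
  exact tsum_congr fun m => tsum_mul_left

/-- The solution of `W = g + μ T W + ν conj (T W)`. -/
theorem exists_solution {μ ν g : Cf}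
    (hμ : Rapid μ) (hν : Rapid ν) (hg : Rapid g) {θ : ℝ} (hθ : 0 ≤ θ) (hθ1 : θ < 1)
    (h : OpBound2 μ ν (ENNReal.ofReal θ)) :
    ∃ W, Rapid W ∧ (∀ n, W n = g n + op μ ν (bT W) n) ∧
      N 0 W ≤ ∑' i, N 0 (term μ ν g i) := by
  set r := (θ + 1) / 2 with hr
  have hr0 : 0 < r := by rw [hr]; linarith
  have hr1 : r < 1 := by rw [hr]; linarith
  have hθr : θ < r := by rw [hr]; linarith
  set d := term μ ν g with hd
  set ρ := Real.sqrt r with hρ
  have hρ0 : 0 < ρ := Real.sqrt_pos.2 hr0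
  have hρ1 : ρ < 1 := by rw [hρ, Real.sqrt_lt' one_pos]; linarith
  have hsum : ∀ k, ∑' i, N k (d i) ≠ ⊤ := by
    intro k
    obtain ⟨K0, hK0, b0⟩ := term_decay isDeriv_m1 neg_m1 hμ hν hg hθ hθr h 0
    obtain ⟨K1, hK1, b1⟩ := term_decay isDeriv_m1 neg_m1 hμ hν hg hθ hθr h (k + 3)
    obtain ⟨K2, hK2, b2⟩ := term_decay isDeriv_m2 neg_m2 hμ hν hg hθ hθr h (k + 3)
    set B := ENNReal.ofReal (9 ^ (k + 3)) * (K0 + K1 + K2) + Zw with hB
    have hBt : B ≠ ⊤ := by have := Zw_ne_top; finiteness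
    have hb : ∀ i, N k (d i) ≤ B * ENNReal.ofReal ρ ^ i := by
      intro i
      refine (N_le_Q k (s := (ρ ^ i)⁻¹) (by positivity) (d i)).trans ?_
      rw [inv_inv, ENNReal.ofReal_mul (by positivity), hB, add_mul, ← ENNReal.ofReal_pow hρ0.le]
      refine add_le_add ?_ (le_of_eq (mul_comm _ _))
      have h0 := b0 i
      rw [Q_zero] at h0
      calc ENNReal.ofReal ((ρ ^ i)⁻¹) * ENNReal.ofReal (9 ^ (k + 3))
            * (L2 (d i) + Q (m1 e1 e2) (k + 3) (d i) + Q (m2 e1 e2) (k + 3) (d i))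
          ≤ ENNReal.ofReal ((ρ ^ i)⁻¹) * ENNReal.ofReal (9 ^ (k + 3))
            * (K0 * ENNReal.ofReal r ^ i + K1 * ENNReal.ofReal r ^ i
              + K2 * ENNReal.ofReal r ^ i) := by
            gcongr
            exacts [b1 i, b2 i]
        _ = ENNReal.ofReal (9 ^ (k + 3)) * (K0 + K1 + K2)
            * (ENNReal.ofReal ((ρ ^ i)⁻¹) * ENNReal.ofReal r ^ i) := by ring
        _ = _ := by
            rw [← ENNReal.ofReal_pow hr0.le, ← ENNReal.ofReal_mul (by positivity)]
            congr 2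
            rw [show r = ρ * ρ from (Real.mul_self_sqrt hr0.le).symm, mul_pow]
            field_simp
    refine ne_top_of_le_ne_top ?_ (ENNReal.tsum_le_tsum hb)
    rw [ENNReal.tsum_mul_left, ENNReal.tsum_geometric]
    refine ENNReal.mul_ne_top hBt (ENNReal.inv_ne_top.2 (tsub_pos_iff_lt.2 ?_).ne')
    exact ENNReal.ofReal_lt_one.2 hρ1
  have hnorm : Summable fun i => (N 0 (d i)).toReal := ENNReal.summable_toReal (hsum 0)
  have hbd : ∀ i n, ‖d i n‖ ≤ (N 0 (d i)).toReal := fun i n => by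
    rw [← toReal_enorm]
    exact ENNReal.toReal_mono (rapid_term hμ hν hg i 0) (enorm_le_N 0 _ n)
  have hdn : ∀ n, Summable fun i => d i n := fun n =>
    Summable.of_norm_bounded hnorm fun i => hbd i n
  have hle : ∀ k, N k (fun n => ∑' i, d i n) ≤ ∑' i, N k (d i) := by
    intro k
    simp only [N]
    refine le_trans (ENNReal.tsum_le_tsum fun n => mul_le_mul' le_rfl enorm_tsum_le_tsum_enorm) ?_
    simp only [← ENNReal.tsum_mul_left]
    rw [ENNReal.tsum_comm]
  refine ⟨fun n => ∑' i, d i n, fun k => ne_top_of_le_ne_top (hsum k) (hle k), fun n => ?_, hle 0⟩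
  have hT : ∀ m, bT (fun n => ∑' i, d i n) m = ∑' i, bT (d i) m := by
    intro m
    unfold bT
    split_ifs
    · rw [Complex.conj_tsum, tsum_neg]
    · rw [tsum_mul_left]
  have e1 := conv_tsum (c := μ) (f := fun i => bT (d i)) (hμ 0) hnorm
    (fun i m => by rw [norm_bT]; exact hbd i m) n
  have e2 := conv_tsum (c := ν) (f := fun i => cc (bT (d i))) (hν 0) hnorm
    (fun i m => by simp only [cc, RCLike.norm_conj]; rw [norm_bT]; exact hbd i _) n
  dsimp only
  rw [(hdn n).tsum_eq_zero_add]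
  congr 1
  simp only [hd, term, op, Pi.add_apply]
  rw [e1.1.tsum_add e2.1]
  refine congrArg₂ (· + ·) ?_ ?_
  · rw [e1.2, show (fun m => ∑' i, bT (d i) m) = bT (fun n => ∑' i, d i n) from
      funext fun m => (hT m).symm]
  · rw [e2.2, show (fun m => ∑' i, cc (bT (d i)) m) = cc (bT (fun n => ∑' i, d i n)) from
      funext fun m => by simp only [cc, hT, Complex.conj_tsum]]

/-- The equation satisfied by a solution of the coefficient equation. -/
theorem solution_eq {cm cn g W : Cf} (hcm : Rapid cm) (hcn : Rapid cn) (hg : Rapid g) (hW : Rapid W)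
    (hWeq : ∀ n, W n = g n + op cm cn (bT W) n) (x : P2) :
    evS W x = evS cm x * evS (bT W) x + evS cn x * conj (evS (bT W) x) + evS g x := by
  have hT := rapid_bT hW
  have e : W = g + op cm cn (bT W) := funext hWeq
  conv_lhs => rw [e]
  rw [evS_add (hg 0) (rapid_op hcm hcn hT 0), op,
    evS_add (rapid_conv hcm hT 0) (rapid_conv hcn (rapid_cc hT) 0), evS_conv (hcm 0) (hT 0),
    evS_conv (hcn 0) (rapid_cc hT 0), evS_cc]
  ring

/-- The differential of a solution is closed. -/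
theorem solution_closed {W : Cf} (hW : Rapid W) (x : P2) :
    fderiv ℝ (fun u => evS (bT W) u + evS W u) x (0, 1)
      = fderiv ℝ (fun u => Complex.I * (evS (bT W) u - evS W u)) x (1, 0) := by
  have hT := rapid_bT hW
  have hP := rapid_add hT hW
  have hM := rapid_smul Complex.I (rapid_add hT (rapid_smul (-1) hW))
  have f1 : (fun u => evS (bT W) u + evS W u) = evS (bT W + W) :=
    funext fun u => (evS_add (hT 0) (hW 0) u).symm
  have f2 : (fun u => Complex.I * (evS (bT W) u - evS W u))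
      = evS (Complex.I • (bT W + (-1 : ℂ) • W)) :=
    funext fun u => by rw [evS_smul, evS_add (hT 0) (rapid_smul _ hW 0), evS_smul]; ring
  rw [f1, f2, (fderiv_evS (hP 1) x).2, (fderiv_evS (hM 1) x).1]
  congr 1
  funext n
  simp only [D1, D2, m1_std, m2_std, bT, Pi.add_apply, Pi.smul_apply, smul_eq_mul]
  by_cases hn : n = 0
  · subst hn; simp
  · rw [if_neg hn]
    have := lattice_ne_zero hn
    field_simp
    linear_combination (2 * (n.1 : ℂ) * n.2 * W n) * Complex.I_sq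

/-- A periodic solution of the real linear Beltrami system with a closed differential. -/
theorem solve {μ ν h : P2 → ℂ} (sμ : ContDiff ℝ ∞ μ) (sν : ContDiff ℝ ∞ ν)
    (sh : ContDiff ℝ ∞ h) (pμ : Periodic2 e1 e2 μ) (pν : Periodic2 e1 e2 ν)
    (ph : Periodic2 e1 e2 h) (hlt : ∀ x, ‖μ x‖ + ‖ν x‖ < 1) :
    ∃ A B : P2 → ℂ, ContDiff ℝ ∞ A ∧ ContDiff ℝ ∞ B ∧ Periodic2 e1 e2 A ∧ Periodic2 e1 e2 B ∧
      (∀ x, B x = μ x * A x + ν x * conj (A x) + h x) ∧
      ∀ x, fderiv ℝ (fun u => A u + B u) x (0, 1)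
        = fderiv ℝ (fun u => Complex.I * (A u - B u)) x (1, 0) := by
  obtain ⟨cm, hcm, em⟩ := exists_coeff_complex sμ pμ
  obtain ⟨cn, hcn, en⟩ := exists_coeff_complex sν pν
  obtain ⟨g, hg, eg⟩ := exists_coeff_complex sh ph
  obtain ⟨u0, hu0⟩ := exists_max_periodic2 det2_std (fun u => ‖μ u‖ + ‖ν u‖)
    (sμ.continuous.norm.add sν.continuous.norm)
    (fun u => by simp only [(pμ u).1, (pν u).1]) (fun u => by simp only [(pμ u).2, (pν u).2])
  have hop := opBound2_of_le hcm hcn (M := ‖μ u0‖ + ‖ν u0‖)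
    fun y => by rw [em, en]; exact hu0 y
  obtain ⟨W, hW, hWeq, -⟩ := exists_solution hcm hcn hg (sq_nonneg _)
    (pow_lt_one₀ (by positivity) (hlt u0) two_ne_zero) hop
  exact ⟨evS (bT W), evS W, contDiff_evS (rapid_bT hW), contDiff_evS hW, evS_periodic _, evS_periodic _,
    fun x => by rw [solution_eq hcm hcn hg hW hWeq, em, en, eg], solution_closed hW⟩

end Vale.Agent.P204.LinBeltrami
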