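import Vale.Agent.P204.Extend

/-! Tamed implies compatible for almost complex structures depending on one coordinate (P204). -/

namespace Vale.Agent.P204

open scoped ContDiff Matrix
open Matrix

theorem main (A : ℝ → Matrix (Fin 4) (Fin 4) ℝ) (hsm : ∀ a b, ContDiff ℝ ∞ fun t => A t a b)
    (hA : ∀ t, A t * A t = -1) (hper : ∀ t, A (t + 1) = A t)
    (W : (Fin 4 → ℝ) → Matrix (Fin 4) (Fin 4) ℝ) (hW : IsClosedForm W)
    (htame : ∀ x v, v ≠ 0 → 0 < v ⬝ᵥ W x *ᵥ (A (x 0) *ᵥ v)) :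
    ∃ W' : (Fin 4 → ℝ) → Matrix (Fin 4) (Fin 4) ℝ, IsClosedForm W' ∧
      (∀ x v, v ≠ 0 → 0 < v ⬝ᵥ W' x *ᵥ (A (x 0) *ᵥ v)) ∧
      ∀ x, (A (x 0))ᵀ * W' x * A (x 0) = W' x := by
  set B := mean W 0 with hBdef
  have hB : ∀ a b, B b a = -B a b := mean_skew hW 0
  have hpos : ∀ t v, v ≠ 0 → v 0 = 0 → (A t *ᵥ v) 0 = 0 → 0 < v ⬝ᵥ B *ᵥ (A t *ᵥ v) :=
    fun t v h1 h2 h3 => mean_pos hW htame t h1 h2 h3
  obtain ⟨K, hK⟩ := exists_constant A B hsm hA hper hpos
  let h : Fin 4 → Fin 4 → ℝ → ℝ := fun a b t => ext' (A t) B K a b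
  have hh : ∀ a b, ContDiff ℝ ∞ (h a b) := contDiff_entries A B hsm hA K
  refine ⟨fun x => ext' (A (x 0)) B K, ⟨?_, ?_, ?_, ?_⟩, fun x v hv => hK (x 0) v hv,
    fun x => ext_invariant _ B (hA _) (hpos _) hB K⟩
  · exact fun a b => (hh a b).comp (contDiff_apply ℝ ℝ (0 : Fin 4))
  · exact fun x a b => ext_skew _ B hB K a b
  · intro x k
    rcases eq_or_ne k 0 with rfl | hk
    · simp [hper]
    · simp [Ne.symm hk]
  · intro x a b c
    have hd : ∀ p q r : Fin 4,
        fderiv ℝ (fun y : Fin 4 → ℝ => ext' (A (y 0)) B K p q) x (Pi.single r 1) =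
          (Pi.single r 1 : Fin 4 → ℝ) 0 * deriv (h p q) (x 0) := by
      intro p q r
      have h1 : HasFDerivAt (fun y : Fin 4 → ℝ => y 0)
          (ContinuousLinearMap.proj (R := ℝ) (φ := fun _ : Fin 4 => ℝ) 0) x :=
        hasFDerivAt_apply 0 x
      have h2 := (((hh p q).differentiable (by simp)) (x 0)).hasDerivAt.comp_hasFDerivAt x h1
      rw [show (fun y : Fin 4 → ℝ => ext' (A (y 0)) B K p q) = h p q ∘ fun y => y 0 from rfl,
        h2.fderiv]
      simp [mul_comm]
    have hconst : ∀ p q : Fin 4, p ≠ 0 → q ≠ 0 → deriv (h p q) (x 0) = 0 := by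
      intro p q hp hq
      have : h p q = fun _ => B p q := by
        funext t
        have := ext_fibre (A t) B (hA t) hB K (v := Pi.single p 1) (w := Pi.single q 1)
          (by simp [Ne.symm hp]) (by simp [Ne.symm hq])
        simpa using this
      rw [this, deriv_const]
    have hneg : ∀ p q : Fin 4, deriv (h q p) (x 0) = -deriv (h p q) (x 0) := by
      intro p q
      have : h q p = fun t => -h p q t := by
        funext t
        exact ext_skew _ B hB K p q
      rw [this, deriv.fun_neg]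
    rw [hd, hd, hd]
    by_cases ha : a = 0 <;> by_cases hb : b = 0 <;> by_cases hc : c = 0 <;>
      simp [ha, hb, hc, Ne.symm, hconst] <;>
      first
        | linarith [hneg 0 0]
        | linarith [hneg 0 a, hneg a 0]
        | linarith [hneg 0 b, hneg b 0]
        | linarith [hneg 0 c, hneg c 0]

end Vale.Agent.P204
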